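import Vale.Agent.P017.H994.Fam

/-!
# The second class in terms of local conditions
-/

namespace Vale.Agent.P017.H994

open NumberField Vale.Agent.P017.H185 Vale.Agent.P017.H185.QF

/-- the product of five and the ramified primes -/
def five (d : ℕ) : ℕ := if d % 4 = 1 then 10 * d else 5 * d

/-- the local conditions at the odd ramified primes and at `3` -/
def Cond2 (d b : ℕ) : Prop := b % 3 = 1 ∧ ∀ p : ℕ, p.Prime → p ≠ 2 → p ∣ d →
  (¬ p ∣ b → IsSquare (b : ZMod p)) ∧ (p ∣ b → IsSquare ((10 * (10 * d / b) : ℕ) : ZMod p))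

open Classical in
/-- the divisors satisfying the local conditions -/
noncomputable def RS2 (d : ℕ) : Finset ℕ := (five d).divisors.filter (Cond2 d)

theorem dvd_five (d : ℕ) : d ∣ five d := by
  unfold five
  split_ifs
  · exact dvd_mul_left _ _
  · exact dvd_mul_left _ _

theorem five_ne_zero {d : ℕ} (hd : d ≠ 0) : five d ≠ 0 := by
  unfold five
  split_ifs <;> omega

theorem one_mem {d : ℕ} (hd : d ≠ 0) : 1 ∈ RS2 d := by
  classical
  rw [RS2, Finset.mem_filter]
  refine ⟨Nat.mem_divisors.2 ⟨one_dvd _, five_ne_zero hd⟩, rfl, fun p hp _ _ => ⟨fun _ => ?_, fun h => ?_⟩⟩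
  · rw [Nat.cast_one]; exact ⟨1, (mul_one 1).symm⟩
  · exact absurd (Nat.dvd_one.1 h) hp.one_lt.ne'

theorem self_mem {d : ℕ} (hd : d ≠ 0) (h3 : d % 3 = 1) : d ∈ RS2 d := by
  classical
  rw [RS2, Finset.mem_filter]
  refine ⟨Nat.mem_divisors.2 ⟨dvd_five d, five_ne_zero hd⟩, h3, fun p hp _ hpd => ⟨fun h => ?_, fun _ => ?_⟩⟩
  · exact absurd hpd h
  · rw [Nat.mul_div_cancel _ (Nat.pos_of_ne_zero hd)]
    exact ⟨((10 : ℕ) : ZMod p), by push_cast; ring⟩

variable {K : Type*} [Field K] [NumberField K] {d : ℕ} (q : QF K d)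

include q in
/-- the local conditions hold for norms -/
theorem cond_of_norm {b : ℕ} (hb : Squarefree b) (hb5 : b ∣ 10 * d) {w : K} (hw : q.nm w = b)
    {p : ℕ} (hp : p.Prime) (hp2 : p ≠ 2) (hp5 : p ≠ 5) (hpd : p ∣ d) :
    (¬ p ∣ b → IsSquare (b : ZMod p)) ∧
      (p ∣ b → IsSquare ((10 * (10 * d / b) : ℕ) : ZMod p)) := by
  refine ⟨fun h => norm_isSquare q hw hp hpd h, fun h => ?_⟩
  obtain ⟨c, hc⟩ := hb5
  have hb0 : b ≠ 0 := hb.ne_zero
  have hbQ : (b : ℚ) ≠ 0 := by exact_mod_cast hb0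
  have hdiv : 10 * d / b = c := by
    rw [hc]; exact Nat.mul_div_cancel_left c (Nat.pos_of_ne_zero hb0)
  rw [hdiv]
  have hpc : ¬ p ∣ 10 * c := by
    intro h1
    have h10 : ¬ p ∣ 10 := by
      intro h2
      have h3 : p ∣ 2 * 5 := by simpa using h2
      rcases (Nat.Prime.dvd_mul hp).mp h3 with h4 | h4
      · exact hp2 ((Nat.prime_dvd_prime_iff_eq hp Nat.prime_two).mp h4)
      · exact hp5 ((Nat.prime_dvd_prime_iff_eq hp Nat.prime_five).mp h4)
    rcases (Nat.Prime.dvd_mul hp).mp h1 with h2 | h2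
    · exact h10 h2
    · have h3 : p * p ∣ 10 * d := by rw [hc]; exact mul_dvd_mul h h2
      have hcop : Nat.Coprime (p * p) 10 := by
        have : Nat.Coprime p 10 := (Nat.Prime.coprime_iff_not_dvd hp).2 h10
        exact Nat.Coprime.mul_left this this
      have h4 : p * p ∣ d := hcop.dvd_of_dvd_mul_left h3
      have h5 := q.hd p h4
      exact hp.one_lt.ne' (Nat.isUnit_iff.mp h5)
  have hθ : q.nm q.θ = d := by
    have := q.nm_coords 0 1
    simpa using this
  have hw' : q.nm (w * q.θ * (((10 : ℚ) / b : ℚ) : K)) = ((10 * c : ℕ) : ℚ) := by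
    rw [q.nm_mul, q.nm_mul, q.nm_rat, hθ, hw]
    have hcQ : (10 : ℚ) * d = b * c := by exact_mod_cast hc
    push_cast
    field_simp
    linear_combination hcQ
  exact norm_isSquare q hw' hp hpd hpc

/-- two elements: the hypothesis of the criterion -/
theorem hyp_of_card (hd1 : d ≠ 1) (h5 : ¬ 5 ∣ d) (h3 : d % 3 = 1) (h : (RS2 d).card = 2) :
    Hyp q := by
  classical
  have hd0 : d ≠ 0 := q.d_pos.ne'
  rintro b hb hram hb3 ⟨w, hw⟩
  have hmem : b ∈ RS2 d := by
    rw [RS2, Finset.mem_filter]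
    have hdvd : b ∣ five d := by
      apply dvd_of_primes hb
      intro p hp hpb
      have h6 : Ram d p → p ∣ five d := by
        rintro (h1 | ⟨h1, h2⟩)
        · exact h1.trans (dvd_five d)
        · by_cases h4 : d % 4 = 1
          · unfold five
            rw [if_pos h4, h1]
            exact ⟨5 * d, by ring⟩
          · refine Dvd.dvd.trans ?_ (dvd_five d)
            rw [h1]
            omega
      rcases hram p hp hpb with h1 | h1
      · exact h6 h1
      · rw [h1]
        unfold five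
        split_ifs
        · exact ⟨2 * d, by ring⟩
        · exact ⟨d, by ring⟩
    have h10 : b ∣ 10 * d := by
      refine hdvd.trans ?_
      unfold five
      split_ifs
      · exact dvd_rfl
      · exact ⟨2, by ring⟩
    refine ⟨Nat.mem_divisors.2 ⟨hdvd, five_ne_zero hd0⟩, hb3, fun p hp hp2 hpd => ?_⟩
    exact cond_of_norm q hb h10 hw hp hp2 (fun h6 => h5 (h6 ▸ hpd)) hpd
  have hsub : ({1, d} : Finset ℕ) ⊆ RS2 d := by
    intro x hx
    rcases Finset.mem_insert.1 hx with rfl | hx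
    · exact one_mem hd0
    · rw [Finset.mem_singleton.1 hx]; exact self_mem hd0 h3
  have hc : ({1, d} : Finset ℕ).card = 2 := Finset.card_pair (Ne.symm hd1)
  have heq : ({1, d} : Finset ℕ) = RS2 d := Finset.eq_of_subset_of_card_le hsub (by rw [h, hc])
  rw [← heq] at hmem
  simpa using hmem

universe u

/-- **the second class**: two solutions of the local conditions -/
theorem fin_of_two_II {d : ℕ} (hd : Squarefree d) (hd1 : d ≠ 1) (h3 : d % 3 = 1) (h5 : d % 5 = 1 ∨ d % 5 = 4)
    (h : (RS2 d).card = 2) :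
    ∀ (K : Type u) [Field K] [NumberField K] [Algebra.IsQuadraticExtension ℚ K] (θ : K),
        θ ^ 2 = -(d : K) → Finite (X015.baseChange K).toAffine.Point := by
  intro K _ _ _ θ hθ
  obtain ⟨q⟩ := exists_QF_of_sqrt hd hθ
  obtain ⟨hd5, c5, hc5⟩ := exists_c5 h5
  exact finite_II q h3 hd5 hc5 (hyp_of_card q hd1 hd5 h3 h)

end Vale.Agent.P017.H994
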