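import Vale.Agent.P017.H994.Fam

/-!
# The first class in terms of local conditions, all discriminants
-/

namespace Vale.Agent.P017.H994

open NumberField Vale.Agent.P017.H185 Vale.Agent.P017.H185.QF

/-- the product of the ramified primes -/
def ram (d : ℕ) : ℕ := if d % 4 = 1 then 2 * d else d

/-- the local conditions at the odd ramified primes -/
def CondI (d b : ℕ) : Prop := ∀ p : ℕ, p.Prime → p ≠ 2 → p ∣ d →
  (¬ p ∣ b → IsSquare (b : ZMod p)) ∧ (p ∣ b → IsSquare ((2 * (2 * d / b) : ℕ) : ZMod p))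

open Classical in
/-- the divisors satisfying the local conditions -/
noncomputable def RS1 (d : ℕ) : Finset ℕ := (ram d).divisors.filter (CondI d)

theorem dvd_ram (d : ℕ) : d ∣ ram d := by
  unfold ram
  split_ifs
  · exact dvd_mul_left _ _
  · exact dvd_rfl

theorem ram_ne_zero {d : ℕ} (hd : d ≠ 0) : ram d ≠ 0 := by
  unfold ram
  split_ifs <;> omega

theorem one_memI {d : ℕ} (hd : d ≠ 0) : 1 ∈ RS1 d := by
  classical
  rw [RS1, Finset.mem_filter]
  refine ⟨Nat.mem_divisors.2 ⟨one_dvd _, ram_ne_zero hd⟩, fun p hp _ _ => ⟨fun _ => ?_, fun h => ?_⟩⟩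
  · rw [Nat.cast_one]; exact ⟨1, (mul_one 1).symm⟩
  · exact absurd (Nat.dvd_one.1 h) hp.one_lt.ne'

theorem self_memI {d : ℕ} (hd : d ≠ 0) : d ∈ RS1 d := by
  classical
  rw [RS1, Finset.mem_filter]
  refine ⟨Nat.mem_divisors.2 ⟨dvd_ram d, ram_ne_zero hd⟩, fun p hp _ hpd => ⟨fun h => ?_, fun _ => ?_⟩⟩
  · exact absurd hpd h
  · rw [Nat.mul_div_cancel _ (Nat.pos_of_ne_zero hd)]
    exact ⟨((2 : ℕ) : ZMod p), by push_cast; ring⟩

variable {K : Type*} [Field K] [NumberField K] {d : ℕ} (q : QF K d)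

include q in
/-- the local conditions hold for norms -/
theorem condI_of_norm {b : ℕ} (hb : Squarefree b) (hb2 : b ∣ 2 * d) {w : K} (hw : q.nm w = b)
    {p : ℕ} (hp : p.Prime) (hp2 : p ≠ 2) (hpd : p ∣ d) :
    (¬ p ∣ b → IsSquare (b : ZMod p)) ∧
      (p ∣ b → IsSquare ((2 * (2 * d / b) : ℕ) : ZMod p)) := by
  refine ⟨fun h => norm_isSquare q hw hp hpd h, fun h => ?_⟩
  obtain ⟨c, hc⟩ := hb2
  have hb0 : b ≠ 0 := hb.ne_zero
  have hbQ : (b : ℚ) ≠ 0 := by exact_mod_cast hb0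
  have hdiv : 2 * d / b = c := by
    rw [hc]; exact Nat.mul_div_cancel_left c (Nat.pos_of_ne_zero hb0)
  rw [hdiv]
  have hpc : ¬ p ∣ 2 * c := by
    intro h1
    have h10 : ¬ p ∣ 2 := fun h2 => hp2 ((Nat.prime_dvd_prime_iff_eq hp Nat.prime_two).mp h2)
    rcases (Nat.Prime.dvd_mul hp).mp h1 with h2 | h2
    · exact h10 h2
    · have h3 : p * p ∣ 2 * d := by rw [hc]; exact mul_dvd_mul h h2
      have hcop : Nat.Coprime (p * p) 2 := by
        have : Nat.Coprime p 2 := (Nat.Prime.coprime_iff_not_dvd hp).2 h10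
        exact Nat.Coprime.mul_left this this
      have h4 : p * p ∣ d := hcop.dvd_of_dvd_mul_left h3
      have h5 := q.hd p h4
      exact hp.one_lt.ne' (Nat.isUnit_iff.mp h5)
  have hθ : q.nm q.θ = d := by
    have := q.nm_coords 0 1
    simpa using this
  have hw' : q.nm (w * q.θ * (((2 : ℚ) / b : ℚ) : K)) = ((2 * c : ℕ) : ℚ) := by
    rw [q.nm_mul, q.nm_mul, q.nm_rat, hθ, hw]
    have hcQ : (2 : ℚ) * d = b * c := by exact_mod_cast hc
    push_cast
    field_simp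
    linear_combination hcQ
  exact norm_isSquare q hw' hp hpd hpc

include q in
/-- no element of order four in the class group if the only squarefree norms supported on the
ramified primes are `1` and `d` -/
theorem no_order_four_gen (H : ∀ a : ℕ, Squarefree a → (∀ p : ℕ, p.Prime → p ∣ a → Ram d p) →
    (∃ w : K, q.nm w = a) → a = 1 ∨ a = d) :
    ∀ c : ClassGroup (𝓞 K), orderOf c ≠ 4 := by
  intro c hc
  obtain ⟨⟨I₀, hI₀⟩, rfl⟩ := ClassGroup.mk0_surjective c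
  have hI₀0 : I₀ ≠ ⊥ := nonZeroDivisors.ne_zero hI₀
  obtain ⟨n₀, hn₀, hIn₀⟩ := q.exists_hasN hI₀0
  have hI0 : I₀ * I₀ ≠ ⊥ := mul_ne_zero hI₀0 hI₀0
  have hpow : (ClassGroup.mk0 ⟨I₀, hI₀⟩) ^ 4 = 1 := by rw [← hc]; exact pow_orderOf_eq_one _
  have hpow' : ClassGroup.mk0 ⟨(I₀ * I₀) * (I₀ * I₀), mem_nonZeroDivisors_of_ne_zero
      (mul_ne_zero hI0 hI0)⟩ = 1 := by
    rw [← hpow]
    rw [show (4 : ℕ) = 2 + 2 by norm_num, pow_add, sq, ← map_mul, ← map_mul]
    rfl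
  obtain ⟨γ, hγ⟩ := ((ClassGroup.mk0_eq_one_iff _).mp hpow').principal
  have hγ' : (I₀ * I₀) * (I₀ * I₀) = Ideal.span {γ} := hγ
  obtain ⟨a, ha, hram, ⟨J, hJJ, x, y, hx, hy, hxy⟩, w, hw, hwn⟩ :=
    q.amb hI0 (hIn₀.mul hIn₀) hγ'
  have hn₀Q : (n₀ : ℚ) ≠ 0 := by exact_mod_cast hn₀
  have hnma : q.nm (w * (((n₀ : ℚ)⁻¹ : ℚ) : K)) = a := by
    rw [q.nm_mul, q.nm_rat, ← hwn]
    push_cast
    field_simp
  have ha1 := H a ha hram ⟨_, hnma⟩
  have hJ0 : J ≠ ⊥ := by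
    rintro rfl
    rw [Ideal.bot_mul] at hJJ
    exact ha.ne_zero (by exact_mod_cast Ideal.span_singleton_eq_bot.mp hJJ.symm)
  have hJp : ∃ g : 𝓞 K, J = Ideal.span {g} := by
    rcases ha1 with h | h
    · refine ⟨1, eq_span_of_mul_self one_ne_zero ?_⟩
      rw [hJJ, h]; simp
    · refine ⟨q.t, eq_span_of_mul_self q.t_ne_zero ?_⟩
      rw [hJJ, h, ← sq, q.t_sq, Ideal.span_singleton_neg]
  obtain ⟨g, hg⟩ := hJp
  have hJ1 : ClassGroup.mk0 ⟨J, mem_nonZeroDivisors_of_ne_zero hJ0⟩ = 1 := by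
    rw [ClassGroup.mk0_eq_one_iff]
    exact ⟨⟨g, hg⟩⟩
  have hIJ : ClassGroup.mk0 ⟨I₀ * I₀, mem_nonZeroDivisors_of_ne_zero hI0⟩ =
      ClassGroup.mk0 ⟨J, mem_nonZeroDivisors_of_ne_zero hJ0⟩ := by
    rw [ClassGroup.mk0_eq_mk0_iff]
    exact ⟨x, y, hx, hy, hxy⟩
  have h2 : (ClassGroup.mk0 ⟨I₀, hI₀⟩) ^ 2 = 1 := by
    rw [sq, ← map_mul]
    exact hIJ.trans hJ1
  have := orderOf_dvd_of_pow_eq_one h2
  rw [hc] at this
  norm_num at this

/-- two elements: the hypothesis of the criterion -/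
theorem trivial_of_card (hd1 : d ≠ 1) (h : (RS1 d).card = 2) :
    ∀ b : ℕ, Squarefree b → (∀ p : ℕ, p.Prime → p ∣ b → Ram d p) →
    (∃ w : K, q.nm w = b) → b = 1 ∨ b = d := by
  classical
  have hd0 : d ≠ 0 := q.d_pos.ne'
  rintro b hb hram ⟨w, hw⟩
  have hmem : b ∈ RS1 d := by
    rw [RS1, Finset.mem_filter]
    have hdvd : b ∣ ram d := by
      apply dvd_of_primes hb
      intro p hp hpb
      rcases hram p hp hpb with h1 | ⟨h1, h2⟩
      · exact h1.trans (dvd_ram d)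
      · by_cases h4 : d % 4 = 1
        · unfold ram
          rw [if_pos h4, h1]
          exact dvd_mul_right _ _
        · refine Dvd.dvd.trans ?_ (dvd_ram d)
          rw [h1]
          omega
    have h10 : b ∣ 2 * d := by
      refine hdvd.trans ?_
      unfold ram
      split_ifs
      · exact dvd_rfl
      · exact dvd_mul_left _ _
    exact ⟨Nat.mem_divisors.2 ⟨hdvd, ram_ne_zero hd0⟩, fun p hp hp2 hpd =>
      condI_of_norm q hb h10 hw hp hp2 hpd⟩
  have hsub : ({1, d} : Finset ℕ) ⊆ RS1 d := by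
    intro x hx
    rcases Finset.mem_insert.1 hx with rfl | hx
    · exact one_memI hd0
    · rw [Finset.mem_singleton.1 hx]; exact self_memI hd0
  have hc : ({1, d} : Finset ℕ).card = 2 := Finset.card_pair (Ne.symm hd1)
  have heq : ({1, d} : Finset ℕ) = RS1 d := Finset.eq_of_subset_of_card_le hsub (by rw [h, hc])
  rw [← heq] at hmem
  simpa using hmem

universe u

/-- **the first class, all discriminants**: two solutions of the local conditions -/
theorem fin_of_two_I {d : ℕ} (hd : Squarefree d) (hd1 : d ≠ 1) (h3 : d % 3 ≠ 1)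
    (h5 : d % 5 ≠ 1 ∧ d % 5 ≠ 4) (h : (RS1 d).card = 2) :
    ∀ (K : Type u) [Field K] [NumberField K] [Algebra.IsQuadraticExtension ℚ K] (θ : K),
        θ ^ 2 = -(d : K) → Finite (X015.baseChange K).toAffine.Point := by
  intro K _ _ _ θ hθ
  obtain ⟨q⟩ := exists_QF_of_sqrt hd hθ
  apply q.finite_of_cond (no_order_four_gen q (trivial_of_card q hd1 h))
  · intro _ h
    have h1 : ((d : ℕ) : ZMod 3) = ((1 : ℕ) : ZMod 3) := by rw [h]; simp
    have h2 := (ZMod.natCast_eq_natCast_iff _ _ _).mp h1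
    exact h3 h2
  · intro h50 h
    have h6 : d % 5 = 2 ∨ d % 5 = 3 := by omega
    have h7 : ((d : ℕ) : ZMod 5) = ((d % 5 : ℕ) : ZMod 5) := (ZMod.natCast_mod d 5).symm
    rw [h7] at h
    rcases h6 with h6 | h6 <;> rw [h6] at h <;> revert h <;> decide

end Vale.Agent.P017.H994
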