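import Vale.Agent.P017.H994.T6
import Vale.Agent.P017.H506.R0

/-!
The engine with a real character of modulus dividing `120` on every coordinate, last part: reduction
to the main terms for every family given by characters.
-/

namespace Vale.Agent.P017.H994

open Finset Function Vale.Agent.P014.FM Vale.Agent.P017.H506
open Vale.Agent.P014.H580 (J_abs J_mul_left J_mul_right bilin harm_le)

open Classical in
/-- the members of a family up to `X` -/
noncomputable def FamX (F : ℕ → Prop) (X : ℕ) : Finset ℕ := (range (X + 1)).filter F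

lemma mem_FamX {F : ℕ → Prop} {X n : ℕ} : n ∈ FamX F X ↔ n ≤ X ∧ F n := by
  classical
  unfold FamX
  rw [Finset.mem_filter, mem_range, Nat.lt_succ_iff]

section general

variable {ι : Type*} [Fintype ι] [DecidableEq ι]

open Classical in
/-- the part supported on `U` -/
noncomputable def mainC (N : ℕ) (P : ι → ι → ZMod 2) (es cs : ι → ℕ) (U : Finset ι) (n : ℕ) : ℝ :=
  (1 / (N : ℝ)) ^ n.primeFactors.card *
    ∑ D ∈ (tup ι n).filter (fun D => ∀ u, u ∉ U → D u = 1), psi es cs D * wtP P D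

open Classical in
/-- sums over the family and all factorisations -/
lemma sum_Fam (F : ℕ → Prop) (hF : ∀ n, F n → n ≠ 0) (N X : ℕ) (G : (ι → ℕ) → ℝ) :
    ∑ n ∈ FamX F X, (1 / (N : ℝ)) ^ n.primeFactors.card * ∑ D ∈ tup ι n, G D
      = ∑ D ∈ TX ι X, (if F (∏ u, D u) then qN N (∏ u, D u) else 0) * G D := by
  have h1 : ∀ D ∈ (TX ι X).filter (fun D => F (∏ u, D u)), ∏ u, D u ∈ FamX F X := by
    intro D hD
    rw [Finset.mem_filter, mem_TX] at hD
    rw [mem_FamX]
    exact ⟨hD.1.2, hD.2⟩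
  have h2 : ∑ D ∈ TX ι X, (if F (∏ u, D u) then qN N (∏ u, D u) else 0) * G D
      = ∑ D ∈ (TX ι X).filter (fun D => F (∏ u, D u)), qN N (∏ u, D u) * G D := by
    rw [Finset.sum_filter]
    apply Finset.sum_congr rfl
    intro D _
    split_ifs
    · rfl
    · ring
  rw [h2, ← Finset.sum_fiberwise_of_maps_to h1]
  apply Finset.sum_congr rfl
  intro n hn
  rw [mem_FamX] at hn
  rw [Finset.mul_sum]
  have hn0 : n ≠ 0 := hF n hn.2
  apply Finset.sum_congr
  · ext D
    unfold tup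
    rw [Finset.mem_filter, Finset.mem_filter, Finset.mem_filter, mem_TX, Fintype.mem_piFinset]
    constructor
    · rintro ⟨h3, h4⟩
      have h5 : ∀ u, 1 ≤ D u := fun u => Nat.pos_of_mem_divisors (h3 u)
      rw [h4]
      exact ⟨⟨⟨h5, hn.1⟩, hn.2⟩, rfl⟩
    · rintro ⟨⟨⟨h3, _⟩, _⟩, h4⟩
      refine ⟨fun u => ?_, h4⟩
      rw [Nat.mem_divisors]
      refine ⟨?_, hn0⟩
      rw [← h4]
      exact Finset.dvd_prod_of_mem _ (Finset.mem_univ u)
  · intro D hD
    rw [Finset.mem_filter] at hD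
    have h3 : ∏ u, D u = n := by
      rw [Finset.mem_filter] at hD
      exact hD.2
    rw [h3]
    rfl

/-- the error for one choice of the characters -/
noncomputable def ErC (N : ℕ) (P : ι → ι → ZMod 2) (es cs : ι → ℕ) (i Q X : ℕ) : ℝ :=
  ∑ D ∈ TX ι X, gC N P es cs i Q D - ∑ D ∈ TX ι X, gC N P es cs i Q D * mUN N P D

lemma ErC_eq (N : ℕ) (P : ι → ι → ZMod 2) (es cs : ι → ℕ) (i Q X : ℕ) :
    ErC N P es cs i Q X
      = ∑ D ∈ TX ι X, pN N i Q (∏ u, D u) * (psi es cs D * wtP P D * (1 - mUN N P D)) := by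
  unfold ErC gC gN
  rw [← Finset.sum_sub_distrib]
  apply Finset.sum_congr rfl
  intro D _
  ring

open Classical in
/-- the difference in terms of the twisted sums -/
lemma diff_eqC (N : ℕ) (P : ι → ι → ZMod 2) (es cs : ι → ℕ) (F : ℕ → Prop)
    (hF : ∀ n, F n → n ≠ 0) {κ : Type*} (S : Finset κ) (w : κ → ℝ) (is Qs : κ → ℕ)
    (hind : ∀ n, (if F n then qN N n else 0) = ∑ s ∈ S, w s * pN N (is s) (Qs s) n) (X : ℕ) :
    ∑ n ∈ FamX F X, ((1 / (N : ℝ)) ^ n.primeFactors.card * ∑ D ∈ tup ι n, psi es cs D * wtP P D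
        - ∑ U ∈ UsN P N, mainC N P es cs U n)
    = ∑ s ∈ S, w s * ErC N P es cs (is s) (Qs s) X := by
  have h1 : ∀ n ∈ FamX F X, (1 / (N : ℝ)) ^ n.primeFactors.card *
        ∑ D ∈ tup ι n, psi es cs D * wtP P D - ∑ U ∈ UsN P N, mainC N P es cs U n
      = (1 / (N : ℝ)) ^ n.primeFactors.card *
        ∑ D ∈ tup ι n, (psi es cs D * wtP P D * (1 - mUN N P D)) := by
    intro n _
    unfold mainC
    rw [← Finset.mul_sum, ← mul_sub]
    congr 1
    simp only [mul_sub, mul_one, Finset.sum_sub_distrib]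
    congr 1
    simp only [Finset.sum_filter]
    rw [Finset.sum_comm]
    apply Finset.sum_congr rfl
    intro D _
    unfold mUN
    rw [Finset.mul_sum]
    apply Finset.sum_congr rfl
    intro U _
    by_cases h : ∀ u, u ∉ U → D u = 1
    · rw [if_pos h, if_pos h, mul_one]
    · rw [if_neg h, if_neg h, mul_zero]
  rw [Finset.sum_congr rfl h1, sum_Fam F hF]
  simp only [ErC_eq, Finset.mul_sum]
  rw [Finset.sum_comm]
  apply Finset.sum_congr rfl
  intro D _
  rw [hind, Finset.sum_mul]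
  apply Finset.sum_congr rfl
  intro s _
  ring

open Classical in
/-- **reduction to the main terms** -/
theorem engineC (N : ℕ) (hN : 2 ≤ N) (hι : Fintype.card ι = N ^ 2) (P : ι → ι → ZMod 2)
    (hP : ∀ w, P w w = 0) (hmax : ∀ U : Finset ι, Unl P U → U.card ≤ N) (es cs : ι → ℕ)
    (F : ℕ → Prop) (hF : ∀ n, F n → n ≠ 0) {κ : Type*} (S : Finset κ) (w : κ → ℝ) (is Qs : κ → ℕ)
    (his : ∀ s ∈ S, is s ≠ 0) (hQs : ∀ s ∈ S, Odd (Qs s)) (hcs : ∀ s ∈ S, ∀ u, cs u ∣ Qs s)
    (hind : ∀ n, (if F n then qN N n else 0) = ∑ s ∈ S, w s * pN N (is s) (Qs s) n)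
    (ε : ℝ) (hε : 0 < ε) :
    ∃ X₀ : ℕ, ∀ X : ℕ, X₀ ≤ X →
    |∑ n ∈ FamX F X, ((1 / (N : ℝ)) ^ n.primeFactors.card * ∑ D ∈ tup ι n, psi es cs D * wtP P D
        - ∑ U ∈ UsN P N, mainC N P es cs U n)| ≤ ε * X := by
  have hNR : (0 : ℝ) < N := by exact_mod_cast (by omega : 0 < N)
  obtain ⟨A, hA⟩ : ∃ A, 1 + ∑ s ∈ S, |w s| = A := ⟨_, rfl⟩
  have hw0 : 0 ≤ ∑ s ∈ S, |w s| := Finset.sum_nonneg (fun _ _ => abs_nonneg _)
  have hA0 : 0 < A := by linarith
  have hδ : 0 < ε / A := by positivity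
  have hone : ∀ s ∈ S, ∀ᶠ X : ℕ in Filter.atTop,
      |ErC N P es cs (is s) (Qs s) X| ≤ ε / A * X := by
    intro s hs
    obtain ⟨C, X₁, hC, h⟩ := one_iC N (Qs s) hN hι P hP es cs (hcs s hs) (hQs s hs) hmax
    have ht : Filter.Tendsto (fun X : ℕ => C * (Real.log X) ^ (-(1 / (2 * (N : ℝ)))))
        Filter.atTop (nhds 0) := by
      have h1 := (tendsto_rpow_neg_atTop (show (0 : ℝ) < 1 / (2 * (N : ℝ)) by positivity)).comp
        (Real.tendsto_log_atTop.comp tendsto_natCast_atTop_atTop)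
      have h2 := h1.const_mul C
      rw [mul_zero] at h2
      exact h2
    filter_upwards [ht.eventually (ge_mem_nhds hδ), Filter.eventually_ge_atTop ⌈X₁⌉₊] with X h2 h3
    have hX1 : X₁ ≤ X := (Nat.le_ceil _).trans (by exact_mod_cast h3)
    refine (h X hX1 (is s) (his s hs)).trans ?_
    calc C * X * (Real.log X) ^ (-(1 / (2 * (N : ℝ))))
        = (C * (Real.log X) ^ (-(1 / (2 * (N : ℝ))))) * X := by ring
      _ ≤ ε / A * X := mul_le_mul_of_nonneg_right h2 (Nat.cast_nonneg _)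
  have hall := (Filter.eventually_all_finset S).2 hone
  obtain ⟨X₀, hX₀⟩ := Filter.eventually_atTop.1 hall
  refine ⟨X₀, fun X hX => ?_⟩
  have h1 := hX₀ X hX
  rw [diff_eqC N P es cs F hF S w is Qs hind]
  refine (Finset.abs_sum_le_sum_abs _ _).trans ?_
  calc ∑ s ∈ S, |w s * ErC N P es cs (is s) (Qs s) X| ≤ ∑ s ∈ S, |w s| * (ε / A * X) := by
        apply Finset.sum_le_sum
        intro s hs
        rw [abs_mul]
        exact mul_le_mul_of_nonneg_left (h1 s hs) (abs_nonneg _)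
    _ = (∑ s ∈ S, |w s|) * (ε / A * X) := by rw [Finset.sum_mul]
    _ ≤ A * (ε / A * X) := by
        apply mul_le_mul_of_nonneg_right (by linarith)
        positivity
    _ = ε * X := by
        field_simp

end general

/-! ### In the notation of `H506.R0` -/

lemma chi8_eq (n : ℕ) : Vale.Agent.P017.H506.chi8 n = chi8 n := by
  unfold Vale.Agent.P017.H506.chi8 chi8
  have h0 : ((n : ℕ) : ZMod 8) = ((n % 8 : ℕ) : ZMod 8) := by
    rw [ZMod.natCast_mod]
  rw [h0]
  have h1 : n % 8 < 8 := Nat.mod_lt _ (by norm_num)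
  generalize n % 8 = a at h1
  interval_cases a
  · rw [show ZMod.χ₈ ((0 : ℕ) : ZMod 8) = 0 by decide]; norm_num
  · rw [show ZMod.χ₈ ((1 : ℕ) : ZMod 8) = 1 by decide]; norm_num
  · rw [show ZMod.χ₈ ((2 : ℕ) : ZMod 8) = 0 by decide]; norm_num
  · rw [show ZMod.χ₈ ((3 : ℕ) : ZMod 8) = -1 by decide]; norm_num
  · rw [show ZMod.χ₈ ((4 : ℕ) : ZMod 8) = 0 by decide]; norm_num
  · rw [show ZMod.χ₈ ((5 : ℕ) : ZMod 8) = -1 by decide]; norm_num
  · rw [show ZMod.χ₈ ((6 : ℕ) : ZMod 8) = 0 by decide]; norm_num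
  · rw [show ZMod.χ₈ ((7 : ℕ) : ZMod 8) = 1 by decide]; norm_num

/-- the modulus of the odd part of the character -/
def md (y z : ZMod 2) : ℕ := (if y = 1 then 5 else 1) * (if z = 1 then 3 else 1)

lemma slot_eq (x y z : ZMod 2) (m : ℕ) :
    slot x y z m = ps (if x = 1 then 1 else 0) (md y z) m := by
  unfold slot ps md
  rw [chi8_eq]
  have hJ1 : J m 1 = 1 := J_one_right m
  by_cases hx : x = 1 <;> by_cases hy : y = 1 <;> by_cases hz : z = 1 <;>
    simp only [hx, hy, hz, if_true, if_false, pow_one, pow_zero, one_mul, mul_one, hJ1]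
  · rw [J_mul_right _ _ _ (by norm_num) (by norm_num)]
    ring
  · rw [J_mul_right _ _ _ (by norm_num) (by norm_num)]

section general

variable {ι : Type*} [Fintype ι] [DecidableEq ι]

open Classical in
/-- **the engine**: for a family given by characters the sum over all factorisations is the sum of
the terms supported on maximal unlinked sets, up to `ε X` -/
theorem engineS (N : ℕ) (hN : 2 ≤ N) (hι : Fintype.card ι = N ^ 2) (P : ι → ι → ZMod 2)
    (hP : ∀ w, P w w = 0) (hmax : ∀ U : Finset ι, Unl P U → U.card ≤ N)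
    (e8 e5 e3 : ι → ZMod 2) (F : ℕ → Prop) (q : ℕ) (hF : CharFam F q)
    (h5 : ∀ u, e5 u = 1 → 5 ∣ q) (h3 : ∀ u, e3 u = 1 → 3 ∣ q) (ε : ℝ) (hε : 0 < ε) :
    ∃ X₀ : ℕ, ∀ X : ℕ, X₀ ≤ X →
    |∑ n ∈ (range (X + 1)).filter F,
      ((1 / (N : ℝ)) ^ n.primeFactors.card * ∑ D ∈ tup ι n, wtS P e8 e5 e3 D
        - ∑ U ∈ UsN P N, mainS N P e8 e5 e3 U n)| ≤ ε * X := by
  obtain ⟨S, c, hS, hind⟩ := hF
  have hF0 : ∀ n, F n → n ≠ 0 := by
    rintro n hn rfl
    have h := hind 1 0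
    rw [if_pos hn] at h
    have h1 : ∑ j ∈ S, c j * pN 1 j.1 j.2 0 = 0 := by
      apply Finset.sum_eq_zero
      intro j _
      rw [pN_not_sq not_squarefree_zero, mul_zero]
    rw [h1] at h
    unfold qN at h
    norm_num at h
  have hcs : ∀ s ∈ S, ∀ u, md (e5 u) (e3 u) ∣ s.2 := by
    intro s hs u
    refine Dvd.dvd.trans ?_ (hS s hs).2.2
    unfold md
    by_cases hy : e5 u = 1 <;> by_cases hz : e3 u = 1
    · rw [if_pos hy, if_pos hz]
      exact Nat.Coprime.mul_dvd_of_dvd_of_dvd (by norm_num) (h5 u hy) (h3 u hz)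
    · rw [if_pos hy, if_neg hz, mul_one]
      exact h5 u hy
    · rw [if_neg hy, if_pos hz, one_mul]
      exact h3 u hz
    · rw [if_neg hy, if_neg hz]
      exact one_dvd _
  obtain ⟨X₀, h⟩ := engineC N hN hι P hP hmax (fun u => if e8 u = 1 then 1 else 0)
    (fun u => md (e5 u) (e3 u)) F hF0 S c (fun s => s.1) (fun s => s.2) (fun s hs => (hS s hs).1)
    (fun s hs => (hS s hs).2.1) hcs (fun n => hind N n) ε hε
  refine ⟨X₀, fun X hX => ?_⟩
  have h1 := h X hX
  have e1 : ∀ D : ι → ℕ, wtS P e8 e5 e3 D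
      = psi (fun u => if e8 u = 1 then 1 else 0) (fun u => md (e5 u) (e3 u)) D * wtP P D := by
    intro D
    unfold wtS psi
    congr 1
    apply Finset.prod_congr rfl
    intro u _
    exact slot_eq _ _ _ _
  have e2 : ∀ (U : Finset ι) (n : ℕ), mainS N P e8 e5 e3 U n
      = mainC N P (fun u => if e8 u = 1 then 1 else 0) (fun u => md (e5 u) (e3 u)) U n := by
    intro U n
    unfold mainS mainC
    simp only [e1]
  simp only [e1, e2]
  exact h1

end general

/-- the characters modulo `8 Q`, in the notation of `H506.R0` -/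
theorem npchar8 {a b Q : ℕ} (hQ : Odd Q) (hs : ¬ IsSquare Q) (ha : a ≠ 0) :
    Vale.Agent.P014.H687.FM.NPChar (8 * Q)
      (fun m => ((chi4 m ^ a * Vale.Agent.P017.H506.chi8 m ^ b * J m Q : ℝ) : ℂ)) := by
  have h := npchar_C hQ hs b (Nat.one_le_iff_ne_zero.2 ha)
  have e : (fun m => ((chi4 m ^ a * Vale.Agent.P017.H506.chi8 m ^ b * J m Q : ℝ) : ℂ))
      = (fun m => ((cc b a Q m : ℝ) : ℂ)) := by
    funext m
    rw [chi8_eq]
    unfold cc
    congr 1
    ring
  rw [e]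
  exact h

end Vale.Agent.P017.H994
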