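import Vale.Agent.P017.H185.Fam

namespace Vale.Agent.P017.H994

open NumberField Vale.Agent.P017.H185

section group

variable {G : Type*} [CommGroup G]

/-- the number of elements of order at most two is the index of the subgroup of squares -/
theorem card_two_torsion [Finite G] :
    Nat.card {c : G // c * c = 1} = Nat.card (G ⧸ (powMonoidHom 2 : G →* G).range) := by
  have h1 : Nat.card (G ⧸ (powMonoidHom 2 : G →* G).range) = (powMonoidHom 2 : G →* G).range.index := rfl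
  rw [h1, Subgroup.index_range]
  apply Nat.card_congr
  refine Equiv.subtypeEquivRight (fun c => ?_)
  rw [MonoidHom.mem_ker, powMonoidHom_apply, sq]

theorem mk_eq_iff_square {x y : G} :
    (QuotientGroup.mk x : G ⧸ (powMonoidHom 2 : G →* G).range) = QuotientGroup.mk y ↔
      ∃ C, x * y = C * C := by
  rw [QuotientGroup.eq, MonoidHom.mem_range]
  constructor
  · rintro ⟨C, hC⟩
    rw [powMonoidHom_apply, sq] at hC
    refine ⟨x * C, ?_⟩
    rw [mul_mul_mul_comm, hC]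
    group
  · rintro ⟨C, hC⟩
    refine ⟨x⁻¹ * C, ?_⟩
    rw [powMonoidHom_apply, sq, mul_mul_mul_comm, ← hC]
    group

end group

variable {K : Type*} [Field K] [NumberField K] {d : ℕ} (q : QF K d)

theorem mk0_mul {I J : Ideal (𝓞 K)} (hI : I ≠ ⊥) (hJ : J ≠ ⊥) :
    ClassGroup.mk0 ⟨I * J, mem_nonZeroDivisors_of_ne_zero (mul_ne_zero hI hJ)⟩ =
      ClassGroup.mk0 ⟨I, mem_nonZeroDivisors_of_ne_zero hI⟩ *
        ClassGroup.mk0 ⟨J, mem_nonZeroDivisors_of_ne_zero hJ⟩ := by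
  rw [← map_mul]; rfl

include q in
/-- the norm of an ideal whose class is a square is the norm of an element -/
theorem norm_of_square_class {I : Ideal (𝓞 K)} (hI : I ≠ ⊥) {n : ℕ} (hn : q.HasN I n)
    {C : ClassGroup (𝓞 K)} (hC : ClassGroup.mk0 ⟨I, mem_nonZeroDivisors_of_ne_zero hI⟩ = C * C) :
    ∃ w : K, w ≠ 0 ∧ (n : ℚ) = q.nm w := by
  obtain ⟨⟨M, hM⟩, rfl⟩ := ClassGroup.mk0_surjective C
  have hM0 : M ≠ ⊥ := nonZeroDivisors.ne_zero hM
  rw [← map_mul, ClassGroup.mk0_eq_mk0_iff] at hC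
  obtain ⟨x, y, hx, hy, hxy⟩ := hC
  obtain ⟨m, hm, hMm⟩ := q.exists_hasN hM0
  have h1 : q.HasN (Ideal.span {x} * I) (q.N x * n) := (q.hasN_span x).mul hn
  have h2 : q.HasN (Ideal.span {y} * (M * M)) (q.N y * (m * m)) :=
    (q.hasN_span y).mul (hMm.mul hMm)
  have hxy' : Ideal.span {x} * I = Ideal.span {y} * (M * M) := hxy
  rw [hxy'] at h1
  have h3 := q.hasN_unique h1 h2
  have h3' : (q.N x : ℚ) * n = q.N y * (m * m) := by exact_mod_cast h3
  have hxK : algebraMap (𝓞 K) K x ≠ 0 := by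
    rw [Ne, ← map_zero (algebraMap (𝓞 K) K)]; exact fun h => hx (QF.ext' h)
  have hyK : algebraMap (𝓞 K) K y ≠ 0 := by
    rw [Ne, ← map_zero (algebraMap (𝓞 K) K)]; exact fun h => hy (QF.ext' h)
  have hmK : ((m : ℚ) : K) ≠ 0 := by exact_mod_cast hm
  refine ⟨algebraMap (𝓞 K) K y * ((m : ℚ) : K) / algebraMap (𝓞 K) K x,
    div_ne_zero (mul_ne_zero hyK hmK) hxK, ?_⟩
  have h4 : q.nm (algebraMap (𝓞 K) K y * ((m : ℚ) : K) / algebraMap (𝓞 K) K x) *
      q.nm (algebraMap (𝓞 K) K x) = q.N y * m ^ 2 := by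
    rw [← q.nm_mul, div_mul_cancel₀ _ hxK, q.nm_mul, q.nm_rat, ← q.N_eq]
  rw [← q.N_eq] at h4
  have h5 : (q.N x : ℚ) ≠ 0 := by exact_mod_cast q.N_ne_zero hx
  apply mul_right_cancel₀ h5
  rw [h4]
  linear_combination h3'

include q in
/-- ambiguous representatives of the classes of order two -/
theorem amb_class {c : ClassGroup (𝓞 K)} (hc : c * c = 1) :
    ∃ (a : ℕ) (J : Ideal (𝓞 K)) (hJ : J ≠ ⊥), Squarefree a ∧
      (∀ p : ℕ, p.Prime → p ∣ a → Ram d p) ∧ J * J = Ideal.span {(a : 𝓞 K)} ∧ q.HasN J a ∧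
      ClassGroup.mk0 ⟨J, mem_nonZeroDivisors_of_ne_zero hJ⟩ = c := by
  obtain ⟨⟨I, hI⟩, rfl⟩ := ClassGroup.mk0_surjective c
  have hI0 : I ≠ ⊥ := nonZeroDivisors.ne_zero hI
  rw [← map_mul] at hc
  obtain ⟨γ, hγ⟩ := ((ClassGroup.mk0_eq_one_iff _).mp hc).principal
  have hγ' : I * I = Ideal.span {γ} := hγ
  obtain ⟨n, hn, hIn⟩ := q.exists_hasN hI0
  obtain ⟨a, ha, hram, ⟨J, hJJ, x, y, hx, hy, hxy⟩, -⟩ := q.amb hI0 hIn hγ'
  have hJ0 : J ≠ ⊥ := by
    rintro rfl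
    rw [Ideal.bot_mul] at hJJ
    exact ha.ne_zero (by exact_mod_cast Ideal.span_singleton_eq_bot.mp hJJ.symm)
  refine ⟨a, J, hJ0, ha, hram, hJJ, ?_, ?_⟩
  · obtain ⟨m, hm, hJm⟩ := q.exists_hasN hJ0
    have h1 : q.HasN (J * J) (m * m) := hJm.mul hJm
    have h2 : q.HasN (J * J) (a * a) := by
      unfold QF.HasN
      rw [hJJ, Ideal.map_span, Set.image_singleton, map_natCast,
        Ideal.span_singleton_mul_span_singleton]
      push_cast; rfl
    have h3 := q.hasN_unique h1 h2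
    rwa [Nat.mul_self_inj.mp h3] at hJm
  · symm
    rw [ClassGroup.mk0_eq_mk0_iff]
    exact ⟨x, y, hx, hy, hxy⟩

/-- The hypothesis: the squarefree `b > 0` composed of ramified primes and `5`, with `b ≡ 1 mod 3`,
which are norms from `K`, are `1` and `d` only. -/
def Hyp {K : Type*} [Field K] [NumberField K] {d : ℕ} (q : QF K d) : Prop :=
  ∀ b : ℕ, Squarefree b → (∀ p : ℕ, p.Prime → p ∣ b → Ram d p ∨ p = 5) → b % 3 = 1 →
    (∃ w : K, q.nm w = b) → b = 1 ∨ b = d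

theorem ram_ndvd {d a : ℕ} (hram : ∀ p : ℕ, p.Prime → p ∣ a → Ram d p) {p : ℕ} (hp : p.Prime)
    (hp2 : p ≠ 2) (hpd : ¬ p ∣ d) : ¬ p ∣ a := by
  intro h
  rcases hram p hp h with h | h
  · exact hpd h
  · exact hp2 h.1

include q in
/-- **Consequence of the hypothesis**, by counting in the class group. -/
theorem exists_norm_mod3 (hd3 : d % 3 = 1) (hd5 : ¬ 5 ∣ d) {c5 : ℤ} (h5 : (5 : ℤ) ∣ c5 ^ 2 + d)
    (H : Hyp q) {L : Ideal (𝓞 K)} {l : ℕ} (hl : l ≠ 0) (hl3 : ¬ 3 ∣ l) (hL : q.HasN L l) :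
    ∃ a : ℕ, Squarefree a ∧ (∀ p : ℕ, p.Prime → p ∣ a → Ram d p ∨ p = 5) ∧ (l * a) % 3 = 1 ∧
      ∃ w : K, w ≠ 0 ∧ (l : ℚ) * a = q.nm w := by
  classical
  have h3d : ¬ 3 ∣ d := by omega
  -- the prime above five
  have hcop5 : IsCoprime (2 * c5) ((5 : ℕ) : ℤ) := by
    rw [isCoprime_comm]
    refine (Irreducible.coprime_iff_not_dvd
      (Nat.prime_iff_prime_int.mp Nat.prime_five).irreducible).mpr ?_
    intro h
    have h1 : (5 : ℤ) ∣ c5 := by push_cast at h; omega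
    apply hd5
    have : (5 : ℤ) ∣ (d : ℤ) := (dvd_add_right (Dvd.dvd.pow h1 two_ne_zero)).mp h5
    exact_mod_cast this
  have hP5 := q.hasN_split (l := 5) (c := c5) (by push_cast; exact h5) hcop5
  obtain ⟨P5, hP5⟩ : ∃ P5, q.HasN P5 5 := ⟨_, hP5⟩
  have hP50 : P5 ≠ ⊥ := QF.ne_zero_of_hasN (by norm_num) hP5
  obtain ⟨P, hPdef⟩ : ∃ P : Bool → Ideal (𝓞 K), P = fun ε => if ε then P5 else ⊤ := ⟨_, rfl⟩
  obtain ⟨f, hfdef⟩ : ∃ f : Bool → ℕ, f = fun ε => if ε then 5 else 1 := ⟨_, rfl⟩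
  have hPf : ∀ ε, q.HasN (P ε) (f ε) := by
    intro ε
    rw [hPdef, hfdef]
    cases ε
    · simp only [Bool.false_eq_true, if_false]
      unfold QF.HasN
      rw [Ideal.map_top, Ideal.mul_top, Nat.cast_one, Ideal.span_singleton_one]
    · simpa using hP5
  have hP0 : ∀ ε, P ε ≠ ⊥ := by
    intro ε
    rw [hPdef]
    cases ε
    · simp only [Bool.false_eq_true, if_false]
      exact top_ne_bot
    · simpa using hP50
  have hf : ∀ ε, f ε = 5 ∨ f ε = 1 := by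
    intro ε; rw [hfdef]; cases ε <;> simp
  have hf3 : ∀ ε, ¬ 3 ∣ f ε := by
    intro ε; rcases hf ε with h | h <;> rw [h] <;> norm_num
  -- representatives
  have hrep : ∀ c : {c : ClassGroup (𝓞 K) // c * c = 1}, ∃ (a : ℕ) (J : Ideal (𝓞 K)) (hJ : J ≠ ⊥),
      Squarefree a ∧ (∀ p : ℕ, p.Prime → p ∣ a → Ram d p) ∧ J * J = Ideal.span {(a : 𝓞 K)} ∧
      q.HasN J a ∧ ClassGroup.mk0 ⟨J, mem_nonZeroDivisors_of_ne_zero hJ⟩ = c.1 :=
    fun c => amb_class q c.2
  choose a J hJ0 ha hram hJJ hJa hJc using hrep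
  have ha3 : ∀ c, ¬ 3 ∣ a c := fun c => ram_ndvd (hram c) Nat.prime_three (by norm_num) h3d
  have ha5 : ∀ c, ¬ 5 ∣ a c := fun c => ram_ndvd (hram c) Nat.prime_five (by norm_num) hd5
  obtain ⟨I, hI⟩ : ∃ I : {c : ClassGroup (𝓞 K) // c * c = 1} × Bool → Ideal (𝓞 K),
    I = fun s => J s.1 * P s.2 := ⟨_, rfl⟩
  obtain ⟨n, hn⟩ : ∃ n : {c : ClassGroup (𝓞 K) // c * c = 1} × Bool → ℕ,
    n = fun s => a s.1 * f s.2 := ⟨_, rfl⟩
  have hI0 : ∀ s, I s ≠ ⊥ := by
    intro s; rw [hI]; exact mul_ne_zero (hJ0 _) (hP0 _)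
  have hIn : ∀ s, q.HasN (I s) (n s) := by
    intro s; rw [hI, hn]; exact (hJa _).mul (hPf _)
  have hn3 : ∀ s, ¬ 3 ∣ n s := by
    intro s h
    rw [hn] at h
    rcases (Nat.Prime.dvd_mul Nat.prime_three).mp h with h | h
    · exact ha3 _ h
    · exact hf3 _ h
  obtain ⟨cl, hcl⟩ : ∃ cl : {c : ClassGroup (𝓞 K) // c * c = 1} × Bool → ClassGroup (𝓞 K),
    cl = fun s => ClassGroup.mk0 ⟨I s, mem_nonZeroDivisors_of_ne_zero (hI0 s)⟩ := ⟨_, rfl⟩
  obtain ⟨Ψ, hΨ⟩ : ∃ Ψ : {c : ClassGroup (𝓞 K) // c * c = 1} × Bool →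
      (ClassGroup (𝓞 K) ⧸ (powMonoidHom 2 : ClassGroup (𝓞 K) →* ClassGroup (𝓞 K)).range) × Bool,
    Ψ = fun s => (QuotientGroup.mk (cl s), decide (n s % 3 = 1)) := ⟨_, rfl⟩
  have hinj : Function.Injective Ψ := by
    rintro s s' hss
    rw [hΨ] at hss
    simp only [Prod.mk.injEq, decide_eq_decide] at hss
    obtain ⟨h1, h2⟩ := hss
    obtain ⟨C, hC⟩ := mk_eq_iff_square.mp h1
    have hC' : ClassGroup.mk0 ⟨I s * I s', mem_nonZeroDivisors_of_ne_zero
        (mul_ne_zero (hI0 s) (hI0 s'))⟩ = C * C := by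
      rw [mk0_mul (hI0 s) (hI0 s'), ← hC, hcl]
    obtain ⟨w, hw0, hw⟩ := norm_of_square_class q (mul_ne_zero (hI0 s) (hI0 s'))
      ((hIn s).mul (hIn s')) hC'
    have hnn : (n s * n s') % 3 = 1 := by
      have e1 := hn3 s
      have e2 := hn3 s'
      have e3 : n s % 3 = 1 ∧ n s' % 3 = 1 ∨ n s % 3 = 2 ∧ n s' % 3 = 2 := by omega
      rw [Nat.mul_mod]
      rcases e3 with ⟨e3, e4⟩ | ⟨e3, e4⟩ <;> rw [e3, e4]
    obtain ⟨b, k, hkb, hb⟩ := Nat.sq_mul_squarefree (a s.1 * a s'.1)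
    have haa0 : a s.1 * a s'.1 ≠ 0 := mul_ne_zero (ha _).ne_zero (ha _).ne_zero
    have hk0 : k ≠ 0 := by
      rintro rfl
      apply haa0; rw [← hkb]; ring
    have hbram : ∀ p : ℕ, p.Prime → p ∣ b → Ram d p := by
      intro p hp hpb
      have h3 : p ∣ a s.1 * a s'.1 := by rw [← hkb]; exact hpb.mul_left _
      rcases (Nat.Prime.dvd_mul hp).mp h3 with h4 | h4
      · exact hram _ p hp h4
      · exact hram _ p hp h4
    have hb5 : ¬ 5 ∣ b := ram_ndvd hbram Nat.prime_five (by norm_num) hd5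
    have hk3 : ¬ 3 ∣ k := by
      intro h
      have h3 : 3 ∣ a s.1 * a s'.1 := by
        rw [← hkb]; exact (Dvd.dvd.pow h two_ne_zero).mul_right _
      rcases (Nat.Prime.dvd_mul Nat.prime_three).mp h3 with h4 | h4
      · exact ha3 _ h4
      · exact ha3 _ h4
    have hkk : k ^ 2 % 3 = 1 := by
      have : k % 3 = 1 ∨ k % 3 = 2 := by omega
      rw [sq, Nat.mul_mod]
      rcases this with h | h <;> rw [h]
    have hkQ : (k : ℚ) ≠ 0 := by exact_mod_cast hk0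
    have hnn' : n s * n s' = k ^ 2 * b * (f s.2 * f s'.2) := by
      rw [hkb, hn]; ring
    by_cases hε : s.2 = s'.2
    · -- the same exponent
      obtain ⟨F, hF⟩ : ∃ F, F = f s.2 := ⟨_, rfl⟩
      rw [← hε, ← hF] at hnn'
      have hFc : F = 5 ∨ F = 1 := by rw [hF]; exact hf _
      have hFF : F ^ 2 % 3 = 1 := by rcases hFc with h | h <;> rw [h] <;> norm_num
      have hF0 : (F : ℚ) ≠ 0 := by rcases hFc with h | h <;> rw [h] <;> norm_num
      have hb3 : b % 3 = 1 := by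
        rw [hnn', show k ^ 2 * b * (F * F) = k ^ 2 * F ^ 2 * b by ring, Nat.mul_mod,
          Nat.mul_mod (k ^ 2), hkk, hFF] at hnn
        omega
      have hbw : ∃ w : K, q.nm w = b := by
        refine ⟨w * (((k * F : ℚ)⁻¹ : ℚ) : K), ?_⟩
        rw [q.nm_mul, q.nm_rat, ← hw]
        have : ((n s * n s' : ℕ) : ℚ) = k ^ 2 * b * (F * F) := by rw [hnn']; push_cast; ring
        rw [this]
        field_simp
      have hbd := H b hb (fun p hp hpb => Or.inl (hbram p hp hpb)) hb3 hbw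
      have hJJ' : ∃ g : 𝓞 K, g ≠ 0 ∧ J s.1 * J s'.1 = Ideal.span {g} := by
        have hkO : (k : 𝓞 K) ≠ 0 := by exact_mod_cast hk0
        have e0 : (J s.1 * J s'.1) * (J s.1 * J s'.1) = Ideal.span {((k ^ 2 * b : ℕ) : 𝓞 K)} := by
          rw [mul_mul_mul_comm, hJJ, hJJ, Ideal.span_singleton_mul_span_singleton, hkb]
          push_cast; rfl
        rcases hbd with h | h
        · refine ⟨k, hkO, QF.eq_span_of_mul_self hkO ?_⟩
          rw [e0, h]; congr 2; push_cast; ring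
        · have hkt : (k : 𝓞 K) * q.t ≠ 0 := mul_ne_zero hkO q.t_ne_zero
          refine ⟨k * q.t, hkt, QF.eq_span_of_mul_self hkt ?_⟩
          rw [e0, h]
          have : (k : 𝓞 K) * q.t * (k * q.t) = -((k ^ 2 * d : ℕ) : 𝓞 K) := by
            push_cast
            linear_combination (k : 𝓞 K) ^ 2 * q.t_sq
          rw [this, Ideal.span_singleton_neg]
      obtain ⟨g, hg0, hg⟩ := hJJ'
      have hone : ClassGroup.mk0 ⟨J s.1 * J s'.1, mem_nonZeroDivisors_of_ne_zero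
          (mul_ne_zero (hJ0 _) (hJ0 _))⟩ = 1 := by
        rw [ClassGroup.mk0_eq_one_iff]
        exact ⟨⟨g, hg⟩⟩
      have hone' : s.1.1 * s'.1.1 = 1 := by
        rw [mk0_mul (hJ0 _) (hJ0 _), hJc, hJc] at hone
        exact hone
      have hcc : s.1.1 = s'.1.1 := by
        have := s'.1.2
        exact mul_right_cancel (hone'.trans this.symm)
      exact Prod.ext (Subtype.ext hcc) hε
    · exfalso
      have hff : f s.2 * f s'.2 = 5 := by
        rw [hfdef]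
        revert hε
        cases s.2 <;> cases s'.2 <;> simp
      rw [hff] at hnn'
      have hb5sq : Squarefree (5 * b) := by
        rw [Nat.squarefree_mul ((Nat.Prime.coprime_iff_not_dvd Nat.prime_five).mpr hb5)]
        exact ⟨Nat.prime_five.prime.squarefree, hb⟩
      have h5b3 : (5 * b) % 3 = 1 := by
        rw [hnn', show k ^ 2 * b * 5 = k ^ 2 * (5 * b) by ring, Nat.mul_mod, hkk] at hnn
        omega
      have := H (5 * b) hb5sq (fun p hp hpb => by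
        rcases (Nat.Prime.dvd_mul hp).mp hpb with h | h
        · exact Or.inr ((Nat.prime_dvd_prime_iff_eq hp Nat.prime_five).mp h)
        · exact Or.inl (hbram p hp h)) h5b3 ⟨w * (((k : ℚ)⁻¹ : ℚ) : K), by
          rw [q.nm_mul, q.nm_rat, ← hw]
          have : ((n s * n s' : ℕ) : ℚ) = k ^ 2 * b * 5 := by rw [hnn']; push_cast; ring
          rw [this]
          push_cast
          field_simp⟩
      rcases this with h | h
      · omega
      · exact hd5 ⟨b, h.symm⟩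
  have hsurj : Function.Surjective Ψ := by
    refine (hinj.bijective_of_nat_card_le (le_of_eq ?_)).2
    rw [Nat.card_prod, Nat.card_prod, card_two_torsion]
  have hL0 : L ≠ ⊥ := QF.ne_zero_of_hasN hl hL
  obtain ⟨s, hs⟩ := hsurj (QuotientGroup.mk (ClassGroup.mk0 ⟨L, mem_nonZeroDivisors_of_ne_zero hL0⟩),
    decide (l % 3 = 1))
  rw [hΨ] at hs
  simp only [Prod.mk.injEq, decide_eq_decide] at hs
  obtain ⟨h1, h2⟩ := hs
  obtain ⟨C, hC⟩ := mk_eq_iff_square.mp h1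
  have hC' : ClassGroup.mk0 ⟨I s * L, mem_nonZeroDivisors_of_ne_zero
      (mul_ne_zero (hI0 s) hL0)⟩ = C * C := by
    rw [mk0_mul (hI0 s) hL0, ← hC, hcl]
  obtain ⟨w, hw0, hw⟩ := norm_of_square_class q (mul_ne_zero (hI0 s) hL0) ((hIn s).mul hL) hC'
  refine ⟨n s, ?_, ?_, ?_, w, hw0, ?_⟩
  · rw [hn]
    rcases hf s.2 with h | h
    · simp only [h]
      rw [Nat.squarefree_mul (((Nat.Prime.coprime_iff_not_dvd Nat.prime_five).mpr (ha5 _)).symm)]
      exact ⟨ha _, Nat.prime_five.prime.squarefree⟩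
    · simp only [h, mul_one]
      exact ha _
  · intro p hp hpn
    rw [hn] at hpn
    rcases (Nat.Prime.dvd_mul hp).mp hpn with h | h
    · exact Or.inl (hram _ p hp h)
    · rcases hf s.2 with h5 | h5
      · rw [h5] at h
        exact Or.inr ((Nat.prime_dvd_prime_iff_eq hp Nat.prime_five).mp h)
      · rw [h5] at h
        exact absurd (Nat.dvd_one.mp h) hp.one_lt.ne'
  · have e1 := hn3 s
    have e3 : l % 3 = 1 ∧ n s % 3 = 1 ∨ l % 3 = 2 ∧ n s % 3 = 2 := by omega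
    rw [Nat.mul_mod]
    rcases e3 with ⟨e3, e4⟩ | ⟨e3, e4⟩ <;> rw [e3, e4]
  · rw [← hw]; push_cast; ring

end Vale.Agent.P017.H994
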