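import Vale.Agent.P017.H994.Jac
import Vale.Agent.P017.H994.Surj

namespace Vale.Agent.P017.H994

open NumberField Vale.Agent.P017.H185

section local_lemmas

variable {b d M e N : ℤ}

/-- first descent at three -/
theorem three_adic_first (hMe : IsCoprime M e) (hd : d % 3 = 1) (hb : ¬ (3 : ℤ) ∣ b)
    (h : (b * M ^ 2 + (-16 * d) * e ^ 2) * (b * M ^ 2 + (-25 * d) * e ^ 2) = b * N ^ 2) :
    b % 3 = 1 := by
  have key : ∀ b d M e N : ZMod 3, b ≠ 0 → d = 1 →
      (b * M ^ 2 + (-16 * d) * e ^ 2) * (b * M ^ 2 + (-25 * d) * e ^ 2) = b * N ^ 2 →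
      b = 1 ∨ (M = 0 ∧ e = 0) := by decide
  have h1 := congrArg (Int.cast : ℤ → ZMod 3) h
  push_cast at h1
  have hb0 : (b : ZMod 3) ≠ 0 := by
    rw [Ne, ZMod.intCast_zmod_eq_zero_iff_dvd]; exact_mod_cast hb
  have hd1 : (d : ZMod 3) = 1 := by
    have : (d : ZMod 3) = ((1 : ℤ) : ZMod 3) :=
      (ZMod.intCast_eq_intCast_iff_dvd_sub _ _ _).mpr (by push_cast; omega)
    rw [this]; norm_num
  rcases key _ _ _ _ _ hb0 hd1 h1 with h2 | ⟨h2, h3⟩
  · have h3 : ((3 : ℕ) : ℤ) ∣ 1 - b := (ZMod.intCast_eq_intCast_iff_dvd_sub b 1 3).mp (by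
      rw [h2]; norm_num)
    push_cast at h3
    omega
  · exfalso
    rw [ZMod.intCast_zmod_eq_zero_iff_dvd] at h2 h3
    exact cop_ndvd Nat.prime_three hMe h3 h2

/-- second descent at five -/
theorem five_adic_second (hMe : IsCoprime M e) (hd : ¬ (5 : ℤ) ∣ d)
    (hsq : IsSquare (-(d : ZMod 5))) (hb : ¬ (5 : ℤ) ∣ b)
    (h : (b * M ^ 2 + d * e ^ 2) * (b * M ^ 2 + 81 * d * e ^ 2) = b * N ^ 2) :
    IsSquare (b : ZMod 5) := by
  have h81 : (81 : ZMod 5) = 1 := by decide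
  have hF : Fact (Nat.Prime 5) := ⟨Nat.prime_five⟩
  have h1 := congrArg (Int.cast : ℤ → ZMod 5) h
  push_cast at h1
  obtain ⟨r, hr⟩ := hsq
  have hd' : (d : ZMod 5) = -(r * r) := by rw [← hr]; ring
  have hb0 : (b : ZMod 5) ≠ 0 := by
    rw [Ne, ZMod.intCast_zmod_eq_zero_iff_dvd]; exact_mod_cast hb
  have h2 : ((b : ZMod 5) * M ^ 2 + d * e ^ 2) ^ 2 = b * N ^ 2 := by
    rw [← h1, h81]; ring
  by_cases hN : (N : ZMod 5) = 0
  · have h3 : (b : ZMod 5) * M ^ 2 + d * e ^ 2 = 0 := by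
      rw [hN] at h2
      have : ((b : ZMod 5) * M ^ 2 + d * e ^ 2) ^ 2 = 0 := by rw [h2]; ring
      exact pow_eq_zero_iff two_ne_zero |>.mp this
    by_cases hM : (M : ZMod 5) = 0
    · exfalso
      rw [hM] at h3
      have hd0 : (d : ZMod 5) ≠ 0 := by
        rw [Ne, ZMod.intCast_zmod_eq_zero_iff_dvd]; exact_mod_cast hd
      have h4 : (d : ZMod 5) * e ^ 2 = 0 := by linear_combination h3
      have he : (e : ZMod 5) = 0 := by
        rcases mul_eq_zero.mp h4 with h | h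
        · exact absurd h hd0
        · exact pow_eq_zero_iff two_ne_zero |>.mp h
      rw [ZMod.intCast_zmod_eq_zero_iff_dvd] at hM he
      exact cop_ndvd Nat.prime_five hMe he hM
    · refine ⟨r * e / M, ?_⟩
      field_simp
      rw [hd'] at h3
      linear_combination h3
  · refine ⟨((b : ZMod 5) * M ^ 2 + d * e ^ 2) / N, ?_⟩
    field_simp
    linear_combination -h2

end local_lemmas

variable {K : Type*} [Field K] [NumberField K] {d : ℕ} (q : QF K d)

include q in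
theorem cond1_II (hd3 : d % 3 = 1) (H : Hyp q) : Cond1 (d : ℚ) := by
  have hdpos := q.d_pos
  have hdQ : (0 : ℚ) < d := by exact_mod_cast hdpos
  intro x y h hx
  have hx20 : x - 20 * d ≠ 0 := by
    intro h0
    have hx' : x = 20 * d := by linarith
    rw [hx'] at h
    have : y ^ 2 = -(400 * (d : ℚ) ^ 3) := by rw [h]; ring
    have h3 : 0 < (d : ℚ) ^ 3 := by positivity
    nlinarith [sq_nonneg y]
  have hxpos : 0 < x := by
    rcases lt_or_gt_of_ne hx with hneg | hpos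
    · exfalso
      have h3 : 0 < (x - 16 * d) * (x - 25 * d) := by nlinarith
      have h4 : y ^ 2 = x * ((x - 16 * d) * (x - 25 * d)) := by rw [h]; ring
      nlinarith [sq_nonneg y]
    · exact hpos
  obtain ⟨b, M, e, hb, hMe, hM, he, hXb⟩ := exists_sqf hx
  obtain ⟨N, hN⟩ := exists_int_eq (Y := y) (α := -16 * (d : ℤ)) (β := -25 * (d : ℤ)) hb hM he hXb
    (by push_cast; rw [h]; ring)
  have hr0 : (M / e : ℚ) ≠ 0 := div_ne_zero (by exact_mod_cast hM) (by exact_mod_cast he)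
  have hbpos : 0 < b := by
    have h3 : (0 : ℚ) < (M / e : ℚ) ^ 2 := by positivity
    have h4 : (0 : ℚ) < b := by
      rw [hXb] at hxpos
      exact pos_of_mul_pos_left hxpos h3.le
    exact_mod_cast h4
  lift b to ℕ using hbpos.le
  have hbsq : Squarefree b := Int.squarefree_natCast.mp hb
  have hram : ∀ p : ℕ, p.Prime → p ∣ b → Ram d p ∨ p = 5 := by
    intro p hp hpb
    have hpbZ : (p : ℤ) ∣ (b : ℤ) := Int.natCast_dvd_natCast.mpr hpb
    by_cases hpd : p ∣ d
    · exact Or.inl (Or.inl hpd)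
    by_cases hp2 : p = 2
    · left; right
      refine ⟨hp2, ?_⟩
      intro h3
      subst hp2
      exact two_adic_first hb hMe (by omega) hN (by exact_mod_cast hpbZ)
    by_cases hp5 : p = 5
    · exact Or.inr hp5
    exfalso
    apply prime_dvd_gen hp hb hMe hN hpbZ
    · intro h1
      rcases (Nat.prime_iff_prime_int.mp hp).dvd_or_dvd h1 with h1 | h1
      · rw [Int.dvd_neg] at h1
        have h3 : p ∣ 2 ^ 4 := by exact_mod_cast h1
        exact hp2 ((Nat.prime_dvd_prime_iff_eq hp Nat.prime_two).mp (hp.dvd_of_dvd_pow h3))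
      · exact hpd (by exact_mod_cast h1)
    · intro h1
      rcases (Nat.prime_iff_prime_int.mp hp).dvd_or_dvd h1 with h1 | h1
      · rw [Int.dvd_neg] at h1
        have h3 : p ∣ 5 ^ 2 := by exact_mod_cast h1
        exact hp5 ((Nat.prime_dvd_prime_iff_eq hp Nat.prime_five).mp (hp.dvd_of_dvd_pow h3))
      · exact hpd (by exact_mod_cast h1)
  have h3b : ¬ (3 : ℤ) ∣ (b : ℤ) := by
    intro h3
    have h3' : 3 ∣ b := by exact_mod_cast h3
    rcases hram 3 Nat.prime_three h3' with (h4 | h4) | h4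
    · omega
    · omega
    · omega
  have hb3 : b % 3 = 1 := by
    have := three_adic_first hMe (by omega) h3b hN
    omega
  -- the norm equation
  have hnorm : q.nm ((((y / (M / e) / (x - 20 * d) : ℚ)) : K) +
      (((b * (M / e) / (x - 20 * d) : ℚ)) : K) * q.θ) = b := by
    rw [q.nm_coords]
    obtain ⟨r, hr⟩ : ∃ r : ℚ, r = M / e := ⟨_, rfl⟩
    rw [← hr] at hXb hr0 ⊢
    push_cast at hXb
    obtain ⟨z, hz⟩ : ∃ z, z = x - 20 * d := ⟨_, rfl⟩
    rw [← hz] at hx20 ⊢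
    have hy2 : y ^ 2 = b * r ^ 2 * (z ^ 2 - d * (b * r ^ 2)) := by
      rw [h, hz, hXb]; ring
    field_simp
    rw [hy2]
    ring
  rcases H b hbsq hram hb3 ⟨_, hnorm⟩ with h1 | h1
  · refine ⟨M / e, Or.inl ?_⟩
    rw [hXb, h1]; push_cast; ring
  · refine ⟨M / e, Or.inr ?_⟩
    rw [hXb, h1]; push_cast; ring

include q in
/-- **Duality**: genus characters which are locally trivial at the ramified primes and at the primes
above five are trivial. -/
theorem second_trivial2 (hd3 : d % 3 = 1) (hd5 : ¬ 5 ∣ d) {c5 : ℤ} (h5 : (5 : ℤ) ∣ c5 ^ 2 + d)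
    (H : Hyp q) {T : ℕ} (hT : T = 1 ∨ T = 3) {b b' : ℤ}
    (hbb : b * b' = -(d : ℤ)) (hb4 : (T * b : ℤ) % 4 = 1) (hb8 : Ram d 2 → (T * b : ℤ) % 8 = 1)
    (hb5 : IsSquare ((T * b : ℤ) : ZMod 5))
    (loc1 : ∀ p : ℕ, p.Prime → p ≠ 2 → (p : ℤ) ∣ b → IsSquare ((T * b' : ℤ) : ZMod p))
    (loc2 : ∀ p : ℕ, p.Prime → p ≠ 2 → (p : ℤ) ∣ b' → IsSquare ((T * b : ℤ) : ZMod p)) :
    T = 1 ∧ (b = 1 ∨ b' = 1) := by
  by_contra hcon
  have hTcop : Nat.Coprime T d := by
    rcases hT with h | h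
    · rw [h]; exact Nat.coprime_one_left d
    · rw [h, Nat.Prime.coprime_iff_not_dvd Nat.prime_three]; omega
  have hTo : Odd T := by rcases hT with h | h <;> rw [h] <;> decide
  have hT0 : T ≠ 0 := by rcases hT with h | h <;> rw [h] <;> norm_num
  have hTpos : (0 : ℤ) < T := by exact_mod_cast Nat.pos_of_ne_zero hT0
  have hTsq : Squarefree T := by
    rcases hT with h | h
    · rw [h]; exact squarefree_one
    · rw [h]; exact Nat.prime_three.prime.squarefree
  have hdsq : Squarefree (-(d : ℤ)) := by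
    exact Int.squarefree_natAbs.mp (by rw [Int.natAbs_neg, Int.natAbs_natCast]; exact q.hd)
  have hb : Squarefree b := hdsq.squarefree_of_dvd ⟨b', hbb.symm⟩
  have hb' : Squarefree b' := hdsq.squarefree_of_dvd ⟨b, by rw [← hbb]; ring⟩
  have hbd : b.natAbs ∣ d := by
    have := congrArg Int.natAbs hbb
    rw [Int.natAbs_mul, Int.natAbs_neg, Int.natAbs_natCast] at this
    exact ⟨_, this.symm⟩
  have hbd' : b'.natAbs ∣ d := by
    have := congrArg Int.natAbs hbb
    rw [Int.natAbs_mul, Int.natAbs_neg, Int.natAbs_natCast, mul_comm] at this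
    exact ⟨_, this.symm⟩
  have hsqT : ∀ {x : ℤ}, Squarefree x → x.natAbs ∣ d → Squarefree (T * x : ℤ) := by
    intro x hx hxd
    rw [← Int.squarefree_natAbs, Int.natAbs_mul, Int.natAbs_natCast,
      Nat.squarefree_mul (Nat.Coprime.coprime_dvd_right hxd hTcop)]
    exact ⟨hTsq, Int.squarefree_natAbs.mpr hx⟩
  have hone : ∀ {x : ℤ}, (T * x : ℤ) = 1 → T = 1 ∧ x = 1 := by
    intro x hx
    have h1 : (T : ℤ) ∣ 1 := ⟨x, hx.symm⟩
    have h2 : T = 1 := by
      have : T ∣ 1 := by exact_mod_cast h1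
      exact Nat.dvd_one.mp this
    refine ⟨h2, ?_⟩
    rw [h2] at hx
    simpa using hx
  have hne1 : (T * b : ℤ) ≠ 1 := fun h => hcon ⟨(hone h).1, Or.inl (hone h).2⟩
  have hne2 : (T * b' : ℤ) ≠ 1 := fun h => hcon ⟨(hone h).1, Or.inr (hone h).2⟩
  obtain ⟨l, hld, hlp, hlo, hJ1, hJ2⟩ :=
    exists_prime_neg_neg (hsqT hb hbd) hne1 (hsqT hb' hbd') hne2 (d + 5)
  have hdpos := q.d_pos
  have hld' : ¬ l ∣ d := fun h => absurd (Nat.le_of_dvd hdpos h) (by omega)
  have hl3 : ¬ 3 ∣ l := by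
    intro h
    have := (Nat.prime_dvd_prime_iff_eq Nat.prime_three hlp).mp h
    omega
  have hlT : ¬ l ∣ T := by
    intro h
    have := Nat.le_of_dvd (Nat.pos_of_ne_zero hT0) h
    rcases hT with h1 | h1 <;> omega
  have hldZ : ¬ (l : ℤ) ∣ -(d : ℤ) := by
    rw [Int.dvd_neg, Int.natCast_dvd_natCast]; exact hld'
  have hlf := Fact.mk hlp
  have hsq : IsSquare ((-(d : ℤ) : ℤ) : ZMod l) := by
    have hTl : (T : ℤ).gcd l = 1 := by
      apply gcd_one_of_primes
      intro p hp hpl hpT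
      have h1 := (Nat.prime_dvd_prime_iff_eq hp hlp).mp hpl
      rw [h1] at hpT
      exact hlT (by exact_mod_cast hpT)
    have h1 : jacobiSym (-(d : ℤ)) l = 1 := by
      have h2 : jacobiSym ((T * b : ℤ) * (T * b' : ℤ)) l = 1 := by
        rw [jacobiSym.mul_left, hJ1, hJ2]; norm_num
      have h3 : (T * b : ℤ) * (T * b' : ℤ) = (T : ℤ) ^ 2 * (-(d : ℤ)) := by rw [← hbb]; ring
      rw [h3, jacobiSym.mul_left, jacobiSym.sq_one' hTl, one_mul] at h2
      exact h2
    rw [← jacobiSym.legendreSym.to_jacobiSym] at h1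
    exact (legendreSym.eq_one_iff l (by rw [Ne, ZMod.intCast_zmod_eq_zero_iff_dvd]; exact hldZ)).mp h1
  obtain ⟨r, hr⟩ := hsq
  obtain ⟨c, hc⟩ : ∃ c : ℤ, (c : ZMod l) = r := ⟨r.val, by simp⟩
  have hlc : (l : ℤ) ∣ c ^ 2 + d := by
    rw [← ZMod.intCast_zmod_eq_zero_iff_dvd]
    push_cast at hr ⊢
    rw [hc]
    linear_combination -hr
  have hl2 : ¬ (l : ℤ) ∣ 2 * c := by
    intro h
    rcases (Nat.prime_iff_prime_int.mp hlp).dvd_or_dvd h with h | h
    · have h2 : l ∣ 2 := by exact_mod_cast h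
      have := (Nat.prime_dvd_prime_iff_eq hlp Nat.prime_two).mp h2
      rw [this] at hlo
      exact absurd hlo (by decide)
    · apply hld'
      have : (l : ℤ) ∣ (d : ℤ) := (dvd_add_right (Dvd.dvd.pow h two_ne_zero)).mp hlc
      exact_mod_cast this
  have hcop : IsCoprime (2 * c) (l : ℤ) := by
    rw [isCoprime_comm]
    exact (Irreducible.coprime_iff_not_dvd (Nat.prime_iff_prime_int.mp hlp).irreducible).mpr hl2
  have hL := q.hasN_split hlc hcop
  obtain ⟨a, ha, hram, hla3, w, hw, hwn⟩ := exists_norm_mod3 q hd3 hd5 h5 H hlp.ne_zero hl3 hL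
  -- clear denominators
  obtain ⟨u, hu⟩ : ∃ u, u = q.re w := ⟨_, rfl⟩
  obtain ⟨v, hv⟩ : ∃ v, v = q.im w := ⟨_, rfl⟩
  have h1 : (l : ℚ) * a = u ^ 2 + d * v ^ 2 := by rw [hwn, hu, hv]; rfl
  have hud : (u.den : ℚ) ≠ 0 := by exact_mod_cast u.den_ne_zero
  have hvd : (v.den : ℚ) ≠ 0 := by exact_mod_cast v.den_ne_zero
  have h2 : (((u.num * v.den) ^ 2 + d * (v.num * u.den) ^ 2 : ℤ) : ℚ) =
      (((l * a : ℕ) : ℤ) * (u.den * v.den : ℤ) ^ 2 : ℤ) := by
    have e1 : u = u.num / u.den := (Rat.num_div_den u).symm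
    have e2 : v = v.num / v.den := (Rat.num_div_den v).symm
    push_cast
    rw [h1]
    conv_rhs => rw [e1, e2]
    field_simp
    simp only [Rat.num_div_den]
    ring
  have h3 : (u.num * v.den) ^ 2 + d * (v.num * u.den) ^ 2 =
      ((l * a : ℕ) : ℤ) * (u.den * v.den : ℤ) ^ 2 := by exact_mod_cast h2
  have hW : (u.den * v.den : ℤ) ≠ 0 := by
    exact_mod_cast mul_ne_zero u.den_ne_zero v.den_ne_zero
  have h5T : ¬ ((5 : ℕ) : ℤ) ∣ (T * b : ℤ) := by
    intro h
    rcases (Nat.prime_iff_prime_int.mp Nat.prime_five).dvd_or_dvd h with h | h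
    · have h' : 5 ∣ T := by exact_mod_cast h
      rcases hT with h1 | h1 <;> omega
    · exact hd5 ((Int.natCast_dvd.mp h).trans hbd)
  have hJT : jacobiSym ((l * a : ℕ) : ℤ) T = 1 := by
    rcases hT with h | h
    · rw [h]; exact jacobiSym.one_right _
    · rw [h, jacobiSym.mod_left]
      have : ((l * a : ℕ) : ℤ) % ((3 : ℕ) : ℤ) = 1 := by
        have : ((l * a : ℕ) : ℤ) % ((3 : ℕ) : ℤ) = (((l * a) % 3 : ℕ) : ℤ) := by norm_cast
        rw [this, hla3]; rfl
      rw [this]; exact jacobiSym.one_left 3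
  have hfin := jac_main2 q.hd hTo hTcop hbb hb4 ha (fun p hp hpa => by
      rcases hram p hp hpa with h | h
      · exact Or.inl h
      · right
        subst h
        exact ⟨by norm_num, h5T, hb5⟩) (fun h2a => hb8 (by
      rcases hram 2 Nat.prime_two h2a with h | h
      · exact h
      · omega)) hlo hlp hld' loc1 loc2 hJT hW h3
  rw [hfin] at hJ1
  norm_num at hJ1

end Vale.Agent.P017.H994
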