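import Vale.Agent.P017.H994.Trans

namespace Vale.Agent.P017.H994

open NumberField Vale.Agent.P017.H185

variable {K : Type*} [Field K] [NumberField K] {d : ℕ} (q : QF K d)

theorem mod3_of_primes {a : ℕ} (ha0 : a ≠ 0) (h : ∀ p : ℕ, p.Prime → p ∣ a → p % 3 = 1) :
    a % 3 = 1 := by
  revert ha0 h
  induction a using Nat.recOnMul with
  | zero => intro h; exact absurd rfl h
  | one => intro _ _; rfl
  | prime p hp => intro _ h; exact h p hp dvd_rfl
  | mul m n hm hn =>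
    intro h0 h
    have hm0 : m ≠ 0 := left_ne_zero_of_mul h0
    have hn0 : n ≠ 0 := right_ne_zero_of_mul h0
    rw [Nat.mul_mod, hm hm0 (fun p hp hpm => h p hp (hpm.mul_right _)),
      hn hn0 (fun p hp hpm => h p hp (hpm.mul_left _))]

theorem dvd_of_primes {b d : ℕ} (hb : Squarefree b) (h : ∀ p : ℕ, p.Prime → p ∣ b → p ∣ d) :
    b ∣ d := by
  rw [← Nat.prod_primeFactors_of_squarefree hb]
  exact Finset.prod_primes_dvd _ (fun p hp => (Nat.prime_of_mem_primeFactors hp).prime)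
    (fun p hp => h p (Nat.prime_of_mem_primeFactors hp) (Nat.dvd_of_mem_primeFactors hp))

/-- the hypothesis when all prime factors of `d ≡ 3 mod 4` are `≡ 1 mod 3` -/
theorem hyp_of_redei (hd4 : d % 4 = 3) (hp3 : ∀ p : ℕ, p.Prime → p ∣ d → p % 3 = 1)
    (hR : Redei d) : Hyp q := by
  rintro b hb hram hb3 ⟨w, hw⟩
  have hram' : ∀ p : ℕ, p.Prime → p ∣ b → p ∣ d ∨ p = 5 := by
    intro p hp hpb
    rcases hram p hp hpb with (h | h) | h
    · exact Or.inl h
    · exact absurd hd4 h.2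
    · exact Or.inr h
  by_cases h5 : 5 ∣ b
  · exfalso
    obtain ⟨a, ha⟩ := h5
    have hb0 : b ≠ 0 := hb.ne_zero
    have ha0 : a ≠ 0 := by rintro rfl; exact hb0 (by rw [ha])
    have h1 : a % 3 = 1 := by
      apply mod3_of_primes ha0
      intro p hp hpa
      rcases hram' p hp (by rw [ha]; exact hpa.mul_left 5) with h | h
      · exact hp3 p hp h
      · exfalso
        rw [h] at hpa
        obtain ⟨c, hc⟩ := hpa
        have := hb 5 ⟨c, by rw [ha, hc]; ring⟩
        exact absurd (Nat.isUnit_iff.mp this) (by norm_num)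
    omega
  · have hbd : b ∣ d := dvd_of_primes hb (fun p hp hpb => by
      rcases hram' p hp hpb with h | h
      · exact h
      · rw [h] at hpb; exact absurd hpb h5)
    exact hR b hbd (fun p hp hpd => q.norm_local hbd hw hp hpd)

theorem exists_c5 {d : ℕ} (h : d % 5 = 1 ∨ d % 5 = 4) : ¬ 5 ∣ d ∧ ∃ c5 : ℤ, (5 : ℤ) ∣ c5 ^ 2 + d := by
  constructor
  · omega
  · rcases h with h | h
    · exact ⟨2, by omega⟩
    · exact ⟨1, by omega⟩

theorem exists_family2 (n : ℕ) : ∀ B : ℕ, ∃ d > B, Squarefree d ∧ d.primeFactors.card = n + 1 ∧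
    d % 60 = 31 ∧ (∀ p : ℕ, p.Prime → p ∣ d → p % 3 = 1) ∧ Redei d := by
  induction n with
  | zero =>
    intro B
    obtain ⟨p, hpB, hp, hpn⟩ := Nat.forall_exists_prime_gt_and_eq_mod (q := 60)
      (a := ((31 : ℕ) : ZMod 60)) ((ZMod.isUnit_iff_coprime 31 60).mpr (by norm_num)) B
    have hp60 : p % 60 = 31 := (ZMod.natCast_eq_natCast_iff _ _ _).mp hpn
    refine ⟨p, hpB, hp.squarefree, ?_, hp60, ?_, Redei.of_prime hp⟩
    · rw [hp.primeFactors]; simp
    · intro r hr hrp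
      rw [(Nat.prime_dvd_prime_iff_eq hr hp).mp hrp]; omega
  | succ n ih =>
    intro B
    obtain ⟨d, -, hd, hcard, hd60, hd3, hR⟩ := ih 0
    have hd1 : d ≠ 1 := by rintro rfl; norm_num at hd60
    have hq₁ := Nat.minFac_prime hd1
    have hcop : Nat.Coprime d 60 := by
      rw [Nat.Coprime, Nat.gcd_comm, Nat.gcd_rec, hd60]; norm_num
    obtain ⟨p, hpB, hp, hp60, hns, hs⟩ := exists_prime_ext hd hcop hq₁ (Nat.minFac_dvd d) (max B d)
    have hpB' : B < p := lt_of_le_of_lt (le_max_left _ _) hpB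
    have hpd' : d < p := lt_of_le_of_lt (le_max_right _ _) hpB
    have hd0 : 0 < d := Nat.pos_of_ne_zero hd.ne_zero
    have hpd : ¬ p ∣ d := fun h => absurd (Nat.le_of_dvd hd0 h) (by omega)
    have hc : Nat.Coprime d p := by
      rw [Nat.coprime_comm, Nat.Prime.coprime_iff_not_dvd hp]; exact hpd
    refine ⟨d * p, by nlinarith, ?_, ?_, ?_, ?_, ?_⟩
    · rw [Nat.squarefree_mul hc]; exact ⟨hd, hp.squarefree⟩
    · rw [Nat.Coprime.primeFactors_mul hc, Finset.card_union_of_disjoint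
        hc.disjoint_primeFactors, hcard, hp.primeFactors]
      simp
    · rw [Nat.mul_mod, hd60, hp60]
    · intro r hr hrd
      rcases (Nat.Prime.dvd_mul hr).mp hrd with h | h
      · exact hd3 r hr h
      · rw [(Nat.prime_dvd_prime_iff_eq hr hp).mp h]; omega
    · exact Redei.mul_prime hd (Nat.odd_iff.mpr (by omega)) hR hp (by omega) hpd hq₁
        (Nat.minFac_dvd d) hns hs

include q in
/-- a norm prime to `p ∣ d` is a square modulo `p` -/
theorem norm_isSquare {a : ℕ} {w : K} (hw : q.nm w = a) {p : ℕ} (hp : p.Prime)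
    (hpd : p ∣ d) (hpa : ¬ p ∣ a) : IsSquare (a : ZMod p) := by
  have := Fact.mk hp
  have hp' : Prime (p : ℤ) := Nat.prime_iff_prime_int.mp hp
  obtain ⟨X, Y, Z, hZ, hX, hY, hprim⟩ := exists_prim (q.re w) (q.im w)
  have heq : X ^ 2 + d * Y ^ 2 = a * Z ^ 2 := by
    have : (X : ℚ) ^ 2 + d * Y ^ 2 = a * Z ^ 2 := by
      rw [← hX, ← hY, ← hw, QF.nm]; ring
    exact_mod_cast this
  have hsq : ∀ {e : ℕ}, p * p * e ≠ d := by
    intro e he
    have := q.hd p ⟨e, he.symm⟩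
    exact hp.one_lt.ne' (Nat.isUnit_iff.mp this)
  obtain ⟨d', hd'⟩ := hpd
  have hpd' : ¬ p ∣ d' := by
    rintro ⟨e, he⟩
    exact hsq (e := e) (by rw [hd', he]; ring)
  have hZp : ¬ (p : ℤ) ∣ Z := by
    intro hZp
    have h1 : (p : ℤ) ∣ X ^ 2 := by
      have : X ^ 2 = a * Z ^ 2 - p * (d' * Y ^ 2) := by rw [hd'] at heq; push_cast at heq; linarith
      rw [this]
      exact dvd_sub (Dvd.dvd.mul_left (Dvd.dvd.pow hZp two_ne_zero) _) (dvd_mul_right _ _)
    have h2 := hp'.dvd_of_dvd_pow h1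
    obtain ⟨x, hx⟩ := h2
    obtain ⟨z, hz⟩ := hZp
    have h3 : (p : ℤ) ∣ d' * Y ^ 2 := by
      refine ⟨a * z ^ 2 - x ^ 2, ?_⟩
      apply mul_left_cancel₀ hp'.ne_zero
      rw [hd', hx, hz] at heq
      push_cast at heq
      linear_combination heq
    rcases hp'.dvd_or_dvd h3 with h4 | h4
    · exact hpd' (by exact_mod_cast h4)
    · exact hprim p hp ⟨⟨x, hx⟩, hp'.dvd_of_dvd_pow h4, ⟨z, hz⟩⟩
  have hZ0 : ((Z : ℤ) : ZMod p) ≠ 0 := by
    rwa [Ne, ZMod.intCast_zmod_eq_zero_iff_dvd]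
  refine ⟨(X : ZMod p) / Z, ?_⟩
  have h1 : ((X ^ 2 + d * Y ^ 2 : ℤ) : ZMod p) = ((a * Z ^ 2 : ℤ) : ZMod p) := by rw [heq]
  push_cast at h1
  have h2 : (d : ZMod p) = 0 := by
    rw [hd']; simp
  rw [h2] at h1
  field_simp
  linear_combination -h1

/-- `10` is not a square modulo `p` -/
theorem ten_not_sq {p : ℕ} (hp : p.Prime)
    (h : (p % 8 = 5 ∧ (p % 5 = 1 ∨ p % 5 = 4)) ∨
      ((p % 8 = 1 ∨ p % 8 = 7) ∧ (p % 5 = 2 ∨ p % 5 = 3))) : ¬ IsSquare ((10 : ℕ) : ZMod p) := by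
  intro hsq
  have hodd : Odd p := Nat.odd_iff.mpr (by omega)
  have h10 : ¬ (p : ℤ) ∣ ((10 : ℕ) : ℤ) := by
    intro h1
    have h2 : p ∣ 2 * 5 := by exact_mod_cast h1
    rcases (Nat.Prime.dvd_mul hp).mp h2 with h3 | h3
    · have := (Nat.prime_dvd_prime_iff_eq hp Nat.prime_two).mp h3; omega
    · have := (Nat.prime_dvd_prime_iff_eq hp Nat.prime_five).mp h3; omega
  have h1 : jacobiSym ((10 : ℕ) : ℤ) p = 1 := J_prime_one hp h10 (by exact_mod_cast hsq)
  have h2 : jacobiSym ((10 : ℕ) : ℤ) p = jacobiSym 2 p * jacobiSym ((5 : ℕ) : ℤ) p := by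
    rw [← jacobiSym.mul_left]; norm_num
  have h3 : jacobiSym ((5 : ℕ) : ℤ) p = jacobiSym p 5 :=
    jacobiSym.quadratic_reciprocity_one_mod_four (by norm_num) hodd
  have h4 : jacobiSym 2 p = ZMod.χ₈ p := jacobiSym.at_two hodd
  rw [h2, h3, h4, ZMod.χ₈_nat_eq_if_mod_eight, jacobiSym.mod_left] at h1
  have h5 : ((p : ℤ) % ((5 : ℕ) : ℤ)) = ((p % 5 : ℕ) : ℤ) := by norm_cast
  rw [h5] at h1
  rcases h with ⟨h8, h6⟩ | ⟨h8, h6⟩
  · rw [if_neg (by omega), if_neg (by omega)] at h1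
    rcases h6 with h6 | h6
    · rw [h6] at h1; norm_num at h1
    · rw [h6] at h1; norm_num at h1
  · rw [if_neg (by omega), if_pos h8] at h1
    rcases h6 with h6 | h6
    · rw [h6] at h1; norm_num at h1
    · rw [h6] at h1; norm_num at h1

/-- the hypothesis for `d = p` or `d = 2 p` when `10` is not a square modulo `p` -/
theorem hyp_of_ten {p : ℕ} (hp : p.Prime) (hp2 : p ≠ 2) (hp5 : p ≠ 5)
    (hd : (d = p ∧ p % 3 = 1) ∨ (d = 2 * p ∧ p % 3 = 2))
    (h10 : ¬ IsSquare ((10 : ℕ) : ZMod p)) : Hyp q := by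
  have hpd : p ∣ d := by rcases hd with h | h <;> rw [h.1]; exact dvd_mul_left _ _
  have hp10 : ¬ p ∣ 10 := by
    intro h
    have h2 : p ∣ 2 * 5 := by simpa using h
    rcases (Nat.Prime.dvd_mul hp).mp h2 with h3 | h3
    · exact hp2 ((Nat.prime_dvd_prime_iff_eq hp Nat.prime_two).mp h3)
    · exact hp5 ((Nat.prime_dvd_prime_iff_eq hp Nat.prime_five).mp h3)
  have hno : ∀ w : K, q.nm w ≠ ((10 : ℕ) : ℚ) := fun w hw =>
    h10 (norm_isSquare q hw hp hpd hp10)
  have hθ : q.nm q.θ = d := by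
    have := q.nm_coords 0 1
    simpa using this
  have hpQ : (p : ℚ) ≠ 0 := by exact_mod_cast hp.ne_zero
  rintro b hb hram hb3 ⟨w, hw⟩
  have hbd : b ∣ 10 * p := by
    apply dvd_of_primes hb
    intro r hr hrb
    rcases hram r hr hrb with (h | h) | h
    · rcases hd with h1 | h1
      · rw [h1.1] at h; exact h.mul_left _
      · rw [h1.1] at h
        exact h.trans ⟨5, by ring⟩
    · rw [h.1]; exact ⟨5 * p, by ring⟩
    · rw [h]; exact ⟨2 * p, by ring⟩
  obtain ⟨e, f, he, hf, hef⟩ := (Nat.dvd_mul).mp hbd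
  have hf' : f = 1 ∨ f = p := (Nat.dvd_prime hp).mp hf
  have he' : e = 1 ∨ e = 2 ∨ e = 5 ∨ e = 10 := by
    have h1 : e ≤ 10 := Nat.le_of_dvd (by norm_num) he
    interval_cases e <;> revert he <;> decide
  rw [← hef] at hb3 hw ⊢
  rcases hf' with rfl | rfl
  · rw [mul_one] at hb3 hw ⊢
    rcases he' with rfl | rfl | rfl | rfl
    · exact Or.inl rfl
    · omega
    · omega
    · exact absurd hw (hno w)
  · rcases hd with ⟨hd, hf3⟩ | ⟨hd, hf3⟩
    · rcases he' with rfl | rfl | rfl | rfl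
      · right; rw [hd, one_mul]
      · omega
      · omega
      · exfalso
        apply hno (w / q.θ)
        have h1 : q.nm (w / q.θ) * q.nm q.θ = q.nm w := by
          rw [← q.nm_mul, div_mul_cancel₀ _ (theta_ne_zero q)]
        have hdQ : (d : ℚ) = f := by exact_mod_cast hd
        rw [hθ, hw, hdQ] at h1
        push_cast at h1
        exact mul_right_cancel₀ hpQ h1
    · rcases he' with rfl | rfl | rfl | rfl
      · omega
      · right; rw [hd]
      · exfalso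
        apply hno (w * q.θ * (((f : ℚ)⁻¹ : ℚ) : K))
        have hdQ : (d : ℚ) = 2 * f := by exact_mod_cast hd
        rw [q.nm_mul, q.nm_mul, q.nm_rat, hθ, hw, hdQ]
        push_cast
        field_simp
        norm_num
      · omega

universe u

/-- **Infinite families**: any number of ramified primes. -/
theorem families2 {n : ℕ} (hn : 0 < n) :
    {d : ℕ | Squarefree d ∧ d.primeFactors.card = n ∧ d % 60 = 31 ∧
      ∀ (K : Type u) [Field K] [NumberField K] [Algebra.IsQuadraticExtension ℚ K] (θ : K),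
        θ ^ 2 = -(d : K) → Finite (X015.baseChange K).toAffine.Point}.Infinite := by
  apply Set.infinite_of_forall_exists_gt
  intro B
  obtain ⟨m, rfl⟩ : ∃ m, n = m + 1 := ⟨n - 1, by omega⟩
  obtain ⟨d, hdB, hd, hcard, hd60, hp3, hR⟩ := exists_family2 m B
  refine ⟨d, ⟨hd, hcard, hd60, ?_⟩, hdB⟩
  intro K _ _ _ θ hθ
  obtain ⟨q⟩ := exists_QF_of_sqrt hd hθ
  obtain ⟨hd5, c5, hc5⟩ := exists_c5 (d := d) (Or.inl (by omega))
  exact finite_II q (by omega) hd5 hc5 (hyp_of_redei q (by omega) hp3 hR)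

/-- the fields `ℚ(√-p)` -/
theorem primes_one {p : ℕ} (hp : p.Prime)
    (h : (p % 120 = 19 ∨ p % 120 = 31 ∨ p % 120 = 79 ∨ p % 120 = 91) ∨
      (p % 120 = 61 ∨ p % 120 = 109)) {K : Type*} [Field K] [NumberField K]
    [Algebra.IsQuadraticExtension ℚ K] {θ : K} (hθ : θ ^ 2 = -(p : K)) :
    Finite (X015.baseChange K).toAffine.Point := by
  obtain ⟨q⟩ := exists_QF_of_sqrt hp.squarefree hθ
  obtain ⟨hd5, c5, hc5⟩ := exists_c5 (d := p) (by omega)
  rcases h with h | h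
  · refine finite_II q (by omega) hd5 hc5 (hyp_of_redei q (by omega) ?_ (Redei.of_prime hp))
    intro r hr hrp
    rw [(Nat.prime_dvd_prime_iff_eq hr hp).mp hrp]; omega
  · exact finite_II q (by omega) hd5 hc5 (hyp_of_ten q hp (by omega) (by omega)
      (Or.inl ⟨rfl, by omega⟩) (ten_not_sq hp (Or.inl ⟨by omega, by omega⟩)))

/-- the fields `ℚ(√-2p)` -/
theorem primes_two {p : ℕ} (hp : p.Prime)
    (h : p % 120 = 17 ∨ p % 120 = 23 ∨ p % 120 = 47 ∨ p % 120 = 113) {K : Type*} [Field K]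
    [NumberField K] [Algebra.IsQuadraticExtension ℚ K] {θ : K}
    (hθ : θ ^ 2 = -((2 * p : ℕ) : K)) :
    Finite (X015.baseChange K).toAffine.Point := by
  have hp2 : p ≠ 2 := by omega
  have hsq : Squarefree (2 * p) := by
    rw [Nat.squarefree_mul ((Nat.coprime_primes Nat.prime_two hp).mpr (Ne.symm hp2))]
    exact ⟨Nat.prime_two.prime.squarefree, hp.squarefree⟩
  obtain ⟨q⟩ := exists_QF_of_sqrt hsq hθ
  obtain ⟨hd5, c5, hc5⟩ := exists_c5 (d := 2 * p) (by omega)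
  exact finite_II q (by omega) hd5 hc5 (hyp_of_ten q hp hp2 (by omega)
      (Or.inr ⟨rfl, by omega⟩) (ten_not_sq hp (Or.inr ⟨by omega, by omega⟩)))

end Vale.Agent.P017.H994
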