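import Vale.Agent.P017.H994.Crit

namespace Vale.Agent.P017.H994

open NumberField Vale.Agent.P017.H185

variable {K : Type*} [Field K] [NumberField K] {d : ℕ} (q : QF K d)

/-- the five-adic condition passes to the partner -/
theorem isSquare_partner {x y : ℤ} {c5 : ℤ} {T : ℕ} (h5 : (5 : ℤ) ∣ c5 ^ 2 + d)
    (hxy : x * y = -((T : ℤ) ^ 2 * d)) (hx : ¬ (5 : ℤ) ∣ x) (hsq : IsSquare (x : ZMod 5)) :
    IsSquare (y : ZMod 5) := by
  have hF : Fact (Nat.Prime 5) := ⟨Nat.prime_five⟩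
  have hx0 : (x : ZMod 5) ≠ 0 := by
    rw [Ne, ZMod.intCast_zmod_eq_zero_iff_dvd]; exact_mod_cast hx
  have h1 : ((c5 ^ 2 + d : ℤ) : ZMod 5) = 0 := by
    rw [ZMod.intCast_zmod_eq_zero_iff_dvd]; exact_mod_cast h5
  have h2 := congrArg (Int.cast : ℤ → ZMod 5) hxy
  push_cast at h1 h2
  obtain ⟨r, hr⟩ := hsq
  have hr0 : r ≠ 0 := by
    rintro rfl
    exact hx0 (by rw [hr]; ring)
  refine ⟨T * c5 / r, ?_⟩
  rw [hr] at h2
  field_simp
  linear_combination h2 - (T : ZMod 5) ^ 2 * h1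

include q in
theorem cond2_II (hd3 : d % 3 = 1) (hd5 : ¬ 5 ∣ d) {c5 : ℤ} (h5 : (5 : ℤ) ∣ c5 ^ 2 + d)
    (H : Hyp q) : Cond2 (d : ℚ) := by
  have hdpos := q.d_pos
  intro X Y h hX
  obtain ⟨B, M, e, hB, hMe, hM, he, hXB⟩ := exists_sqf hX
  obtain ⟨N, hN⟩ := exists_int_eq (Y := Y) (α := (d : ℤ)) (β := 81 * (d : ℤ)) hB hM he hXB
    (by push_cast; rw [h])
  have h3d : ¬ ((3 : ℕ) : ℤ) ∣ (d : ℤ) := by push_cast; omega
  have hBprime : ∀ p : ℕ, p.Prime → (p : ℤ) ∣ B → p ≠ 3 → (p : ℤ) ∣ (d : ℤ) := by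
    intro p hp hpb hp3
    by_contra hpd
    by_cases h2 : (p : ℤ) ∣ (81 * (d : ℤ) : ℤ)
    · apply hp3
      rcases (Nat.prime_iff_prime_int.mp hp).dvd_or_dvd h2 with h2 | h2
      · have h4 : p ∣ 3 ^ 4 := by exact_mod_cast h2
        exact (Nat.prime_dvd_prime_iff_eq hp Nat.prime_three).mp (hp.dvd_of_dvd_pow h4)
      · exact absurd h2 hpd
    · exact prime_dvd_gen hp hB hMe hN hpb hpd h2
  have hdsq : Squarefree (d : ℤ) := Int.squarefree_natCast.mpr q.hd
  -- splitting off the factor three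
  obtain ⟨T, b, hT, hBT, hb, h3b⟩ : ∃ (T : ℕ) (b : ℤ), (T = 1 ∨ T = 3) ∧ B = T * b ∧ Squarefree b ∧
      ¬ ((3 : ℕ) : ℤ) ∣ b := by
    by_cases h3 : ((3 : ℕ) : ℤ) ∣ B
    · obtain ⟨b, hb⟩ := h3
      exact ⟨3, b, Or.inr rfl, hb, hB.squarefree_of_dvd ⟨((3 : ℕ) : ℤ), by rw [hb]; ring⟩,
        not_dvd_of_sqf Nat.prime_three hB hb⟩
    · exact ⟨1, B, Or.inl rfl, by simp, hB, h3⟩
  have hTodd : (T : ℤ) % 2 = 1 := by rcases hT with h | h <;> rw [h] <;> norm_num
  have hT8 : (T : ℤ) ^ 2 % 8 = 1 := by rcases hT with h | h <;> rw [h] <;> norm_num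
  have hTp : ∀ p : ℕ, p.Prime → (p : ℤ) ∣ (T : ℤ) → p = 3 := by
    intro p hp h
    have h' : p ∣ T := by exact_mod_cast h
    rcases hT with h1 | h1
    · rw [h1] at h'; exact absurd (Nat.dvd_one.mp h') hp.one_lt.ne'
    · rw [h1] at h'; exact (Nat.prime_dvd_prime_iff_eq hp Nat.prime_three).mp h'
  have hbprime : ∀ p : ℕ, p.Prime → (p : ℤ) ∣ b → (p : ℤ) ∣ (d : ℤ) := by
    intro p hp hpb
    apply hBprime p hp (by rw [hBT]; exact hpb.mul_left _)
    rintro rfl
    exact h3b hpb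
  have hbd : b ∣ (d : ℤ) := by
    have hsq : Squarefree b.natAbs := Int.squarefree_natAbs.mpr hb
    have := sqf_dvd_of_primes hsq (X := (d : ℤ)) (fun p hp hpb => hbprime p hp (Int.natCast_dvd.mpr hpb))
    exact Int.natAbs_dvd.mp this
  obtain ⟨b', hb'⟩ : ∃ b', b * b' = -(d : ℤ) := by
    obtain ⟨c, hc⟩ := hbd
    exact ⟨-c, by rw [hc]; ring⟩
  have hb0 : b ≠ 0 := hb.ne_zero
  have hndsq : ∀ {p : ℕ} {c : ℤ}, p.Prime → (d : ℤ) = p * c → ¬ (p : ℤ) ∣ c := by
    intro p c hp hc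
    exact not_dvd_of_sqf hp hdsq hc
  have loc1 : ∀ p : ℕ, p.Prime → p ≠ 2 → (p : ℤ) ∣ b → IsSquare ((T * b' : ℤ) : ZMod p) := by
    intro p hp hp2 hpb
    obtain ⟨β, hβ⟩ := hpb
    obtain ⟨δ, hδ⟩ := hbprime p hp ⟨β, hβ⟩
    have hβ' := not_dvd_of_sqf hp hb hβ
    have hBβ : B = p * (T * β) := by rw [hBT, hβ]; ring
    have h1 := sq_of_dvd hp hB hMe hN hδ (hndsq hp hδ) hBβ
    have hp0 : (p : ℤ) ≠ 0 := by exact_mod_cast hp.ne_zero
    have h2 : β * b' = -δ := by
      apply mul_left_cancel₀ hp0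
      rw [← mul_assoc, ← hβ, hb', hδ]; ring
    have h4 : -(δ * (T * β)) = β ^ 2 * (T * b') := by
      have : -(δ * (T * β)) = (-δ) * (T * β) := by ring
      rw [this, ← h2]; ring
    rw [h4] at h1
    push_cast at h1
    have := Fact.mk hp
    have hβ0 : (β : ZMod p) ≠ 0 := ne_iff.mpr hβ'
    obtain ⟨z, hz⟩ := h1
    refine ⟨z / β, ?_⟩
    push_cast
    field_simp
    linear_combination hz
  have loc2 : ∀ p : ℕ, p.Prime → p ≠ 2 → (p : ℤ) ∣ b' → IsSquare ((T * b : ℤ) : ZMod p) := by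
    intro p hp hp2 hpb
    have hpd : (p : ℤ) ∣ (d : ℤ) := by
      rw [← Int.dvd_neg, ← hb']; exact hpb.mul_left b
    have hp3 : p ≠ 3 := by rintro rfl; exact h3d hpd
    obtain ⟨δ, hδ⟩ := hpd
    have hpb2 : ¬ (p : ℤ) ∣ b := by
      intro hpb2
      obtain ⟨β, hβ⟩ := hpb2
      obtain ⟨β', hβ'⟩ := hpb
      apply hndsq hp hδ
      have hp0 : (p : ℤ) ≠ 0 := by exact_mod_cast hp.ne_zero
      refine ⟨-(β * β'), ?_⟩
      apply mul_left_cancel₀ hp0
      rw [← hδ]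
      have : (d : ℤ) = -(b * b') := by rw [hb']; ring
      rw [this, hβ, hβ']; ring
    have hpB : ¬ (p : ℤ) ∣ B := by
      rw [hBT]
      intro h
      rcases (Nat.prime_iff_prime_int.mp hp).dvd_or_dvd h with h | h
      · exact hp3 (hTp p hp h)
      · exact hpb2 h
    rw [← hBT]
    exact sq_of_ndvd hp hMe hN hδ (hndsq hp hδ) hpB
  -- the five-adic condition
  have h5d : ¬ (5 : ℤ) ∣ (d : ℤ) := by
    intro h; exact hd5 (by exact_mod_cast h)
  have h5B : ¬ (5 : ℤ) ∣ (T * b : ℤ) := by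
    intro h
    rcases (Nat.prime_iff_prime_int.mp Nat.prime_five).dvd_or_dvd (by push_cast; exact h :
      ((5 : ℕ) : ℤ) ∣ (T * b : ℤ)) with h | h
    · have := hTp 5 Nat.prime_five h; omega
    · exact h5d (by have := hbprime 5 Nat.prime_five h; push_cast at this; exact this)
  have hsq5 : IsSquare (-((d : ℤ) : ZMod 5)) := by
    have h1 : ((c5 ^ 2 + d : ℤ) : ZMod 5) = 0 := by
      rw [ZMod.intCast_zmod_eq_zero_iff_dvd]; exact_mod_cast h5
    push_cast at h1
    refine ⟨c5, ?_⟩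
    push_cast
    linear_combination -h1
  have hB5 : IsSquare ((T * b : ℤ) : ZMod 5) := by
    rw [← hBT]
    exact five_adic_second hMe h5d hsq5 (by rw [hBT]; exact h5B) hN
  have hpart : (T * b : ℤ) * (T * b' : ℤ) = -((T : ℤ) ^ 2 * d) := by
    have : (T * b : ℤ) * (T * b' : ℤ) = (T : ℤ) ^ 2 * (b * b') := by ring
    rw [this, hb']; ring
  have hB5' : IsSquare ((T * b' : ℤ) : ZMod 5) := isSquare_partner h5 hpart h5B hB5
  have hfin : T = 1 ∧ (b = 1 ∨ b' = 1) := by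
    by_cases hd2 : d % 2 = 0
    · obtain ⟨δ, hδ⟩ : ∃ δ : ℤ, (d : ℤ) = 2 * δ := ⟨d / 2, by omega⟩
      have hδ2 : ¬ ((2 : ℕ) : ℤ) ∣ δ := hndsq Nat.prime_two (by push_cast; exact hδ)
      have hδo : δ % 2 = 1 := by push_cast at hδ2; omega
      by_cases hb2 : b % 2 = 0
      · obtain ⟨β, hβ⟩ : ∃ β, b = 2 * β := ⟨b / 2, by omega⟩
        have hβ2 := not_dvd_of_sqf Nat.prime_two hb (by push_cast; exact hβ)
        have hβo : β % 2 = 1 := by push_cast at hβ2; omega
        have hTβo : (T * β : ℤ) % 2 = 1 := odd_mul hTodd hβo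
        have h8 := two_adic_even' hMe hTβo hδo hδ (by rw [hBT, hβ]; ring : B = 2 * (T * β)) hN
        have h1 : β * b' = -δ := by
          apply mul_left_cancel₀ (show (2 : ℤ) ≠ 0 by norm_num)
          rw [← mul_assoc, ← hβ, hb', hδ]; ring
        have hb'8 : (T * b' : ℤ) % 8 = 1 := by
          obtain ⟨k, hk⟩ := sq_mod8 hTβo
          obtain ⟨k', hk'⟩ : ∃ k', (T : ℤ) ^ 2 = 8 * k' + 1 := ⟨(T : ℤ) ^ 2 / 8, by omega⟩
          obtain ⟨j, hj⟩ : ∃ j, T * β + δ = 8 * j := ⟨(T * β + δ) / 8, by omega⟩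
          have h2 : (8 * k + 1) * (T * b') = (T : ℤ) ^ 2 * ((T * β) * (-δ)) := by
            rw [← hk, ← h1]; ring
          have h4 : (T * β) * (-δ) = 8 * (k - j * (T * β)) + 1 := by
            have : δ = 8 * j - T * β := by linarith
            rw [this]
            have : T * β * (-(8 * j - T * β)) = (T * β) ^ 2 - 8 * (j * (T * β)) := by ring
            rw [this, hk]; ring
          rw [h4, hk'] at h2
          have h5 : T * b' = 8 * (k' * (8 * (k - j * (T * β)) + 1) + (k - j * (T * β)) -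
            k * (T * b')) + 1 := by linarith
          omega
        have := second_trivial2 q hd3 hd5 h5 H hT (by rw [mul_comm]; exact hb') (by omega)
          (fun _ => hb'8) hB5' loc2 loc1
        exact ⟨this.1, this.2.symm⟩
      · have hBo : (T * b : ℤ) % 2 = 1 := odd_mul hTodd (by omega)
        have h8 := two_adic_even hMe (by rw [hBT]; exact hBo) hδo hδ hN
        rw [hBT] at h8
        exact second_trivial2 q hd3 hd5 h5 H hT hb' (by omega) (fun _ => h8) hB5 loc1 loc2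
    · have hbo : b % 2 = 1 := by
        by_contra hcon
        have h1 : ((2 : ℕ) : ℤ) ∣ b := by push_cast; omega
        have := hbprime 2 Nat.prime_two h1
        push_cast at this
        omega
      have hBo : (T * b : ℤ) % 2 = 1 := odd_mul hTodd hbo
      obtain ⟨hA, hB'⟩ := two_adic_odd (d := (d : ℤ)) hMe (by rw [hBT]; exact hBo) (by omega) hN
      rw [hBT] at hA hB'
      by_cases hd3' : d % 4 = 3
      · refine second_trivial2 q hd3 hd5 h5 H hT hb' (hA (by omega)) ?_ hB5 loc1 loc2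
        rintro (h1 | h1)
        · omega
        · omega
      · rcases hB' (by omega) with h8 | h8
        · exact second_trivial2 q hd3 hd5 h5 H hT hb' (by omega) (fun _ => h8) hB5 loc1 loc2
        · have hb'8 : (T * b' : ℤ) % 8 = 1 := by
            obtain ⟨k, hk⟩ := sq_mod8 hBo
            obtain ⟨k', hk'⟩ : ∃ k', (T : ℤ) ^ 2 = 8 * k' + 1 := ⟨(T : ℤ) ^ 2 / 8, by omega⟩
            obtain ⟨j, hj⟩ : ∃ j, T * b + d = 8 * j := ⟨(T * b + d) / 8, by omega⟩
            have h2 : (8 * k + 1) * (T * b') = (T : ℤ) ^ 2 * ((T * b) * (-d)) := by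
              rw [← hk, ← hb']; ring
            have h4 : (T * b) * (-(d : ℤ)) = 8 * (k - j * (T * b)) + 1 := by
              have : (d : ℤ) = 8 * j - T * b := by linarith
              rw [this]
              have : T * b * (-(8 * j - T * b)) = (T * b) ^ 2 - 8 * (j * (T * b)) := by ring
              rw [this, hk]; ring
            rw [h4, hk'] at h2
            have h5 : T * b' = 8 * (k' * (8 * (k - j * (T * b)) + 1) + (k - j * (T * b)) -
              k * (T * b')) + 1 := by linarith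
            omega
          have := second_trivial2 q hd3 hd5 h5 H hT (by rw [mul_comm]; exact hb') (by omega)
            (fun _ => hb'8) hB5' loc2 loc1
          exact ⟨this.1, this.2.symm⟩
  obtain ⟨hT1, hfin⟩ := hfin
  refine ⟨M / e, ?_⟩
  rw [hT1, Nat.cast_one, one_mul] at hBT
  rcases hfin with h1 | h1
  · left; rw [hXB, hBT, h1]; push_cast; ring
  · right
    rw [h1, mul_one] at hb'
    rw [hXB, hBT, hb']; push_cast; ring

include q in
/-- `X₀(15)(K)` is finite, arithmetic form -/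
theorem finite_II (hd3 : d % 3 = 1) (hd5 : ¬ 5 ∣ d) {c5 : ℤ} (h5 : (5 : ℤ) ∣ c5 ^ 2 + d)
    (H : Hyp q) : Finite (X015.baseChange K).toAffine.Point := by
  have hd0 : (d : ℚ) ≠ 0 := by exact_mod_cast q.d_pos.ne'
  exact finite_X015 K (finite_EK q finite_EQ' (finite_ED hd0 (cond1_II q hd3 H)
    (cond2_II q hd3 hd5 h5 H)))

end Vale.Agent.P017.H994
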