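import Vale.Agent.P017.H6.T9

/-!
Closed subsets of `F₂ᵏ` and numbers of injective maps.
-/

namespace Vale.Agent.P017.H994.Q

open Finset Vale.Agent.P017.H654 Vale.Agent.P017.H6

/-- the number of injective linear maps from `F₂ⁱ` to a space with `X` elements -/
noncomputable def inj (i : ℕ) (X : ℝ) : ℝ := ∏ l ∈ range i, (X - 2 ^ l)

lemma inj_zero (X : ℝ) : inj 0 X = 1 := by
  unfold inj
  rw [Finset.prod_range_zero]

lemma inj_succ (i : ℕ) (X : ℝ) : inj (i + 1) X = inj i X * (X - 2 ^ i) := by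
  unfold inj
  rw [Finset.prod_range_succ]

variable {k : ℕ}

/-- the codimension -/
def cd (S : Finset (V k)) : ℕ := k - Nat.log 2 S.card

lemma card_two_pow {S : Finset (V k)} (hS : Cl S) : ∃ m, m ≤ k ∧ S.card = 2 ^ m := by
  have h : S.card ∣ 2 ^ k := ⟨_, (card_mul_pp hS).symm⟩
  obtain ⟨m, hm, h2⟩ := (Nat.dvd_prime_pow Nat.prime_two).1 h
  exact ⟨m, hm, h2⟩

/-- first coordinate `0` -/
def c0 (w : V k) : V (k + 1) := Fin.cons 0 w

/-- first coordinate `1` -/
def c1 (w : V k) : V (k + 1) := Fin.cons 1 w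

lemma c0_inj : Function.Injective (c0 (k := k)) := fun _ _ h => (Fin.cons_injective2 h).2

lemma c1_inj : Function.Injective (c1 (k := k)) := fun _ _ h => (Fin.cons_injective2 h).2

lemma c0_add (a b : V k) : c0 (a + b) = c0 a + c0 b := by
  funext i
  refine Fin.cases ?_ (fun j => ?_) i
  · simp [c0]
  · simp [c0]

lemma c01_add (a b : V k) : c1 (a + b) = c0 a + c1 b := by
  funext i
  refine Fin.cases ?_ (fun j => ?_) i
  · simp [c0, c1]
  · simp [c0, c1]

lemma c11_add (a b : V k) : c0 (a + b) = c1 a + c1 b := by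
  funext i
  refine Fin.cases ?_ (fun j => ?_) i
  · simp only [c0, c1, Fin.cons_zero, Pi.add_apply]
    decide
  · simp [c0, c1]

lemma c0_zero : c0 (0 : V k) = 0 := by
  funext i
  refine Fin.cases ?_ (fun j => ?_) i
  · simp [c0]
  · simp [c0]

lemma cases_w (w : V (k + 1)) : (∃ a, w = c0 a) ∨ (∃ a, w = c1 a) := by
  have h2 : ∀ z : ZMod 2, z = 0 ∨ z = 1 := by decide
  rcases h2 (w 0) with h | h
  · left
    refine ⟨Fin.tail w, ?_⟩
    unfold c0
    rw [← h, Fin.cons_self_tail]
  · right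
    refine ⟨Fin.tail w, ?_⟩
    unfold c1
    rw [← h, Fin.cons_self_tail]

lemma c0_ne_c1 (a b : V k) : c0 a ≠ c1 b := by
  intro h
  have := congrFun h 0
  simp [c0, c1] at this

open Classical in
/-- the part in the hyperplane -/
noncomputable def W0 (W : Finset (V (k + 1))) : Finset (V k) := univ.filter fun w => c0 w ∈ W

open Classical in
/-- the part outside the hyperplane -/
noncomputable def W1 (W : Finset (V (k + 1))) : Finset (V k) := univ.filter fun w => c1 w ∈ W

lemma mem_W0 {W : Finset (V (k + 1))} {w : V k} : w ∈ W0 W ↔ c0 w ∈ W := by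
  unfold W0
  simp only [Finset.mem_filter, Finset.mem_univ, true_and]

lemma mem_W1 {W : Finset (V (k + 1))} {w : V k} : w ∈ W1 W ↔ c1 w ∈ W := by
  unfold W1
  simp only [Finset.mem_filter, Finset.mem_univ, true_and]

lemma W0_cl {W : Finset (V (k + 1))} (hW : Cl W) : Cl (W0 W) := by
  constructor
  · rw [mem_W0, c0_zero]
    exact hW.1
  · intro a ha b hb
    rw [mem_W0] at ha hb ⊢
    rw [c0_add]
    exact hW.2 _ ha _ hb

lemma card_W (W : Finset (V (k + 1))) : W.card = (W0 W).card + (W1 W).card := by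
  classical
  have h1 : W = (W0 W).map ⟨c0, c0_inj⟩ ∪ (W1 W).map ⟨c1, c1_inj⟩ := by
    ext w
    rw [Finset.mem_union, Finset.mem_map, Finset.mem_map]
    constructor
    · intro hw
      rcases cases_w w with ⟨a, rfl⟩ | ⟨a, rfl⟩
      · exact Or.inl ⟨a, mem_W0.2 hw, rfl⟩
      · exact Or.inr ⟨a, mem_W1.2 hw, rfl⟩
    · rintro (⟨a, ha, rfl⟩ | ⟨a, ha, rfl⟩)
      · exact mem_W0.1 ha
      · exact mem_W1.1 ha
  conv_lhs => rw [h1]
  rw [Finset.card_union_of_disjoint, Finset.card_map, Finset.card_map]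
  rw [Finset.disjoint_left]
  intro w hw hw'
  rw [Finset.mem_map] at hw hw'
  obtain ⟨a, _, rfl⟩ := hw
  obtain ⟨b, _, h⟩ := hw'
  exact c0_ne_c1 a b h.symm

lemma add_mem_iff {W : Finset (V (k + 1))} (hW : Cl W) {a w : V (k + 1)} (ha : a ∈ W) :
    w + a ∈ W ↔ w ∈ W := by
  constructor
  · intro h
    have h1 := hW.2 _ h _ ha
    rw [add_assoc, H654.add_self, add_zero] at h1
    exact h1
  · intro h
    exact hW.2 _ h _ ha

lemma card_W1 {W : Finset (V (k + 1))} (hW : Cl W) {a : V k} (ha : a ∈ W1 W) :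
    (W1 W).card = (W0 W).card := by
  rw [mem_W1] at ha
  refine Finset.card_nbij' (fun w => w + a) (fun w => w + a) ?_ ?_ ?_ ?_
  · intro w hw
    have hw' := mem_W1.1 (Finset.mem_coe.1 hw)
    refine Finset.mem_coe.2 (mem_W0.2 ?_)
    rw [c11_add]
    exact hW.2 _ hw' _ ha
  · intro w hw
    have hw' := mem_W0.1 (Finset.mem_coe.1 hw)
    refine Finset.mem_coe.2 (mem_W1.2 ?_)
    rw [c01_add]
    exact hW.2 _ hw' _ ha
  · intro w _
    dsimp only
    rw [add_assoc, H654.add_self, add_zero]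
  · intro w _
    dsimp only
    rw [add_assoc, H654.add_self, add_zero]

lemma log_two_pow (m : ℕ) : Nat.log 2 (2 ^ m) = m := Nat.log_pow (by norm_num) m

lemma cd_one {W : Finset (V (k + 1))} (hW : Cl W) (h : W1 W = ∅) : cd W = cd (W0 W) + 1 := by
  obtain ⟨m, hm, h2⟩ := card_two_pow (W0_cl hW)
  have h3 := card_W W
  rw [h, Finset.card_empty, add_zero] at h3
  unfold cd
  rw [h3, h2, log_two_pow]
  omega

lemma cd_two {W : Finset (V (k + 1))} (hW : Cl W) {a : V k} (ha : a ∈ W1 W) :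
    cd W = cd (W0 W) := by
  obtain ⟨m, hm, h2⟩ := card_two_pow (W0_cl hW)
  have h3 := card_W W
  rw [card_W1 hW ha, h2] at h3
  have h4 : 2 ^ m + 2 ^ m = 2 ^ (m + 1) := by ring
  rw [h4] at h3
  unfold cd
  rw [h3, h2, log_two_pow, log_two_pow]
  omega

open Classical in
/-- the closed set with trace `S` through `(1, a)` -/
noncomputable def GG (S : Finset (V k)) (a : V k) : Finset (V (k + 1)) :=
  S.image c0 ∪ S.image (fun w => c1 (w + a))

lemma c0_mem_GG {S : Finset (V k)} {a w : V k} : c0 w ∈ GG S a ↔ w ∈ S := by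
  classical
  unfold GG
  rw [Finset.mem_union, Finset.mem_image, Finset.mem_image]
  constructor
  · rintro (⟨b, hb, h⟩ | ⟨b, _, h⟩)
    · rw [← c0_inj h]
      exact hb
    · exact absurd h.symm (c0_ne_c1 _ _)
  · intro h
    exact Or.inl ⟨w, h, rfl⟩

lemma c1_mem_GG {S : Finset (V k)} {a w : V k} : c1 w ∈ GG S a ↔ w + a ∈ S := by
  classical
  unfold GG
  rw [Finset.mem_union, Finset.mem_image, Finset.mem_image]
  constructor
  · rintro (⟨b, _, h⟩ | ⟨b, hb, h⟩)
    · exact absurd h (c0_ne_c1 _ _)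
    · rw [← c1_inj h, add_assoc, H654.add_self, add_zero]
      exact hb
  · intro h
    refine Or.inr ⟨w + a, h, ?_⟩
    rw [add_assoc, H654.add_self, add_zero]

lemma GG_cl {S : Finset (V k)} (hS : Cl S) (a : V k) : Cl (GG S a) := by
  constructor
  · rw [← c0_zero, c0_mem_GG]
    exact hS.1
  · intro x hx y hy
    rcases cases_w x with ⟨b, rfl⟩ | ⟨b, rfl⟩ <;> rcases cases_w y with ⟨c, rfl⟩ | ⟨c, rfl⟩
    · rw [c0_mem_GG] at hx hy
      rw [← c0_add, c0_mem_GG]
      exact hS.2 _ hx _ hy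
    · rw [c0_mem_GG] at hx
      rw [c1_mem_GG] at hy
      rw [← c01_add, c1_mem_GG, add_assoc]
      exact hS.2 _ hx _ hy
    · rw [c1_mem_GG] at hx
      rw [c0_mem_GG] at hy
      rw [add_comm (c1 b) (c0 c), ← c01_add, c1_mem_GG, add_assoc]
      exact hS.2 _ hy _ hx
    · rw [c1_mem_GG] at hx hy
      rw [← c11_add, c0_mem_GG]
      have h := hS.2 _ hx _ hy
      have e : b + a + (c + a) = b + c + (a + a) := by abel
      rw [e, H654.add_self, add_zero] at h
      exact h

/-- the recursion over the dimension -/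
theorem rec_Sb (ψ : ℕ → ℝ) : ∑ W ∈ Sb (k + 1), ψ (cd W)
    = ∑ S ∈ Sb k, (ψ (cd S + 1) + 2 ^ cd S * ψ (cd S)) := by
  classical
  rw [← Finset.sum_filter_add_sum_filter_not (Sb (k + 1)) (fun W => W1 W = ∅),
    Finset.sum_add_distrib]
  congr 1
  · refine Finset.sum_nbij' (fun W => W0 W) (fun S => S.image c0) ?_ ?_ ?_ ?_ ?_
    · intro W hW
      rw [Finset.mem_filter, mem_Sb] at hW
      rw [mem_Sb]
      exact W0_cl hW.1
    · intro S hS
      rw [mem_Sb] at hS
      rw [Finset.mem_filter, mem_Sb]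
      refine ⟨⟨?_, ?_⟩, ?_⟩
      · rw [Finset.mem_image]
        exact ⟨0, hS.1, c0_zero⟩
      · intro x hx y hy
        rw [Finset.mem_image] at hx hy ⊢
        obtain ⟨b, hb, rfl⟩ := hx
        obtain ⟨c, hc, rfl⟩ := hy
        exact ⟨b + c, hS.2 _ hb _ hc, c0_add b c⟩
      · rw [Finset.eq_empty_iff_forall_notMem]
        intro w hw
        rw [mem_W1, Finset.mem_image] at hw
        obtain ⟨b, _, h⟩ := hw
        exact c0_ne_c1 _ _ h
    · intro W hW
      rw [Finset.mem_filter, mem_Sb] at hW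
      ext w
      rw [Finset.mem_image]
      constructor
      · rintro ⟨b, hb, rfl⟩
        exact mem_W0.1 hb
      · intro hw
        rcases cases_w w with ⟨b, rfl⟩ | ⟨b, rfl⟩
        · exact ⟨b, mem_W0.2 hw, rfl⟩
        · exfalso
          have h1 : b ∈ W1 W := mem_W1.2 hw
          rw [hW.2] at h1
          exact Finset.notMem_empty _ h1
    · intro S _
      ext w
      rw [mem_W0, Finset.mem_image]
      constructor
      · rintro ⟨b, hb, h⟩
        rw [← c0_inj h]
        exact hb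
      · intro h
        exact ⟨w, h, rfl⟩
    · intro W hW
      rw [Finset.mem_filter, mem_Sb] at hW
      rw [cd_one hW.1 hW.2]
  · have h1 : ∀ W ∈ (Sb (k + 1)).filter (fun W => ¬ W1 W = ∅),
        ψ (cd W) = ∑ _a ∈ W1 W, ψ (cd (W0 W)) / ((W0 W).card : ℝ) := by
      intro W hW
      rw [Finset.mem_filter, mem_Sb] at hW
      obtain ⟨a, ha⟩ := Finset.nonempty_iff_ne_empty.2 hW.2
      rw [Finset.sum_const, card_W1 hW.1 ha, cd_two hW.1 ha, nsmul_eq_mul]
      have h0 : 0 < (W0 W).card := Finset.card_pos.2 ⟨0, (W0_cl hW.1).1⟩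
      have h0' : ((W0 W).card : ℝ) ≠ 0 := by exact_mod_cast h0.ne'
      field_simp
    have h2 : ∀ S ∈ Sb k, 2 ^ cd S * ψ (cd S) = ∑ _a : V k, ψ (cd S) / (S.card : ℝ) := by
      intro S hS
      rw [mem_Sb] at hS
      obtain ⟨m, hm, h3⟩ := card_two_pow hS
      have h4 : cd S = k - m := by
        unfold cd
        rw [h3, log_two_pow]
      have h5 : (Fintype.card (V k) : ℝ) = 2 ^ (k - m) * (S.card : ℝ) := by
        rw [h3]
        have h6 : Fintype.card (V k) = 2 ^ k := by simp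
        rw [h6]
        push_cast
        rw [← pow_add]
        congr 1
        omega
      have h7 : (S.card : ℝ) ≠ 0 := by
        rw [h3]
        positivity
      rw [Finset.sum_const, Finset.card_univ, nsmul_eq_mul, h5, h4]
      field_simp
    rw [Finset.sum_congr rfl h1, Finset.sum_congr rfl h2, Finset.sum_sigma', Finset.sum_sigma']
    refine Finset.sum_nbij' (fun p => ⟨W0 p.1, p.2⟩) (fun p => ⟨GG p.1 p.2, p.2⟩) ?_ ?_ ?_ ?_ ?_
    · rintro ⟨W, a⟩ hp
      rw [Finset.mem_sigma, Finset.mem_filter, mem_Sb] at hp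
      rw [Finset.mem_sigma, mem_Sb]
      exact ⟨W0_cl hp.1.1, Finset.mem_univ _⟩
    · rintro ⟨S, a⟩ hp
      rw [Finset.mem_sigma, mem_Sb] at hp
      have ha : a ∈ W1 (GG S a) := by
        rw [mem_W1, c1_mem_GG, H654.add_self]
        exact hp.1.1
      rw [Finset.mem_sigma, Finset.mem_filter, mem_Sb]
      exact ⟨⟨GG_cl hp.1 a, Finset.nonempty_iff_ne_empty.1 ⟨a, ha⟩⟩, ha⟩
    · rintro ⟨W, a⟩ hp
      rw [Finset.mem_sigma, Finset.mem_filter, mem_Sb] at hp
      obtain ⟨⟨hW, _⟩, ha⟩ := hp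
      have ha' : c1 a ∈ W := mem_W1.1 ha
      have e : GG (W0 W) a = W := by
        ext w
        rcases cases_w w with ⟨b, rfl⟩ | ⟨b, rfl⟩
        · rw [c0_mem_GG, mem_W0]
        · rw [c1_mem_GG, mem_W0, c11_add, add_mem_iff hW ha']
      dsimp only
      rw [e]
    · rintro ⟨S, a⟩ hp
      have e : W0 (GG S a) = S := by
        ext w
        rw [mem_W0, c0_mem_GG]
      dsimp only
      rw [e]
    · rintro ⟨W, a⟩ _
      rfl

/-- **powers in terms of numbers of injective maps** -/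
theorem pow_eq (k : ℕ) (X : ℝ) : X ^ k = ∑ S ∈ Sb k, inj (cd S) X := by
  induction k with
  | zero =>
    have h1 : Sb 0 = {univ} := by
      ext S
      rw [mem_Sb, Finset.mem_singleton]
      constructor
      · intro h
        ext w
        have hw : w = 0 := Subsingleton.elim _ _
        rw [hw]
        exact ⟨fun _ => Finset.mem_univ _, fun _ => h.1⟩
      · rintro rfl
        exact ⟨Finset.mem_univ _, fun _ _ _ _ => Finset.mem_univ _⟩
    rw [h1, Finset.sum_singleton]
    have h2 : cd (univ : Finset (V 0)) = 0 := by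
      unfold cd
      omega
    rw [h2, inj_zero, pow_zero]
  | succ k ih =>
    rw [rec_Sb (fun i => inj i X), pow_succ, ih, Finset.sum_mul]
    apply Finset.sum_congr rfl
    intro S _
    rw [inj_succ]
    ring

/-- all codimensions except that of `0` are smaller -/
theorem cd_lt {S : Finset (V k)} (hS : Cl S) (h : S ≠ {0}) : cd S < k := by
  obtain ⟨m, hm, h2⟩ := card_two_pow hS
  unfold cd
  rw [h2, log_two_pow]
  have h3 : 0 < m := by
    rw [Nat.pos_iff_ne_zero]
    rintro rfl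
    rw [pow_zero, Finset.card_eq_one] at h2
    obtain ⟨x, hx⟩ := h2
    apply h
    rw [hx] at hS ⊢
    have := hS.1
    rw [Finset.mem_singleton] at this
    rw [this]
  omega

theorem zero_mem_Sb : ({0} : Finset (V k)) ∈ Sb k := by
  rw [mem_Sb]
  constructor
  · exact Finset.mem_singleton_self _
  · intro a ha b hb
    rw [Finset.mem_singleton] at ha hb ⊢
    rw [ha, hb, add_zero]

theorem cd_zero : cd ({0} : Finset (V k)) = k := by
  unfold cd
  rw [Finset.card_singleton]
  simp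

end Vale.Agent.P017.H994.Q
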