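import Vale.Agent.P017.H994.Q1

/-!
From all moments to the proportion of the value `1`.
-/

namespace Vale.Agent.P017.H994.Q

open Finset Vale.Agent.P017.H654 Vale.Agent.P017.H6

/-- the average of `f` over the family is `c`, up to `ε X` -/
def Avg (F : ℕ → Finset ℕ) (f : ℕ → ℝ) (c : ℝ) : Prop :=
  ∀ ε : ℝ, 0 < ε → ∃ X₀ : ℕ, ∀ X : ℕ, X₀ ≤ X →
    |∑ n ∈ F X, f n - c * ((F X).card : ℝ)| ≤ ε * X

variable {F : ℕ → Finset ℕ}

lemma Avg.one : Avg F (fun _ => 1) 1 := by
  intro ε hε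
  refine ⟨0, fun X _ => ?_⟩
  rw [Finset.sum_const, nsmul_eq_mul, mul_one, one_mul, sub_self, abs_zero]
  positivity

lemma Avg.zero : Avg F (fun _ => 0) 0 := by
  intro ε hε
  refine ⟨0, fun X _ => ?_⟩
  rw [Finset.sum_const_zero, zero_mul, sub_self, abs_zero]
  positivity

lemma Avg.add {f g : ℕ → ℝ} {a b : ℝ} (hf : Avg F f a) (hg : Avg F g b) :
    Avg F (fun n => f n + g n) (a + b) := by
  intro ε hε
  obtain ⟨X₁, h1⟩ := hf (ε / 2) (by positivity)
  obtain ⟨X₂, h2⟩ := hg (ε / 2) (by positivity)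
  refine ⟨max X₁ X₂, fun X hX => ?_⟩
  have k1 := h1 X ((le_max_left _ _).trans hX)
  have k2 := h2 X ((le_max_right _ _).trans hX)
  rw [Finset.sum_add_distrib]
  have e : ∑ n ∈ F X, f n + ∑ n ∈ F X, g n - (a + b) * ((F X).card : ℝ)
      = (∑ n ∈ F X, f n - a * ((F X).card : ℝ)) + (∑ n ∈ F X, g n - b * ((F X).card : ℝ)) := by
    ring
  rw [e]
  refine (abs_add_le _ _).trans ?_
  linarith

lemma Avg.smul {f : ℕ → ℝ} {a : ℝ} (c : ℝ) (hf : Avg F f a) :
    Avg F (fun n => c * f n) (c * a) := by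
  intro ε hε
  obtain ⟨X₁, h1⟩ := hf (ε / (|c| + 1)) (by positivity)
  refine ⟨X₁, fun X hX => ?_⟩
  have k1 := h1 X hX
  rw [← Finset.mul_sum, mul_assoc, ← mul_sub, abs_mul]
  calc |c| * |∑ n ∈ F X, f n - a * ((F X).card : ℝ)| ≤ |c| * (ε / (|c| + 1) * X) :=
        mul_le_mul_of_nonneg_left k1 (abs_nonneg _)
    _ = (|c| / (|c| + 1)) * (ε * X) := by field_simp
    _ ≤ 1 * (ε * X) := by
        apply mul_le_mul_of_nonneg_right _ (by positivity)
        rw [div_le_one (by positivity)]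
        linarith
    _ = ε * X := one_mul _

lemma Avg.sum {κ : Type*} (s : Finset κ) {f : κ → ℕ → ℝ} {a : κ → ℝ}
    (h : ∀ i ∈ s, Avg F (f i) (a i)) : Avg F (fun n => ∑ i ∈ s, f i n) (∑ i ∈ s, a i) := by
  classical
  induction s using Finset.induction_on with
  | empty =>
    simp only [Finset.sum_empty]
    exact Avg.zero
  | insert i s hi ih =>
    simp only [Finset.sum_insert hi]
    exact (h i (Finset.mem_insert_self _ _)).add (ih fun j hj => h j (Finset.mem_insert_of_mem hj))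

lemma Avg.congr {f g : ℕ → ℝ} {a b : ℝ} (hf : Avg F f a) (h : ∀ n, f n = g n) (hab : a = b) :
    Avg F g b := by
  have e : f = g := funext h
  rw [← e, ← hab]
  exact hf

/-- **all averages of numbers of injective maps are `1`** -/
theorem avg_inj (R : ℕ → ℝ) (hm : ∀ k, Avg F (fun n => R n ^ k) ((Sb k).card : ℝ)) (i : ℕ) :
    Avg F (fun n => inj i (R n)) 1 := by
  classical
  induction i using Nat.strong_induction_on with
  | _ i ih =>
    have h1 : Avg F (fun n => ∑ S ∈ (Sb i).erase {0}, inj (cd S) (R n))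
        (∑ _S ∈ (Sb i).erase {0}, (1 : ℝ)) := by
      apply Avg.sum
      intro S hS
      rw [Finset.mem_erase, mem_Sb] at hS
      exact ih _ (cd_lt hS.2 hS.1)
    have h2 := (hm i).add (h1.smul (-1))
    refine h2.congr ?_ ?_
    · intro n
      have h3 := pow_eq i (R n)
      rw [← Finset.add_sum_erase _ _ (zero_mem_Sb (k := i)), cd_zero] at h3
      rw [h3]
      ring
    · rw [Finset.sum_const, nsmul_eq_mul, mul_one, Finset.card_erase_of_mem zero_mem_Sb]
      have h4 : 1 ≤ (Sb i).card := Finset.card_pos.2 ⟨_, zero_mem_Sb⟩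
      rw [Nat.cast_sub h4]
      push_cast
      ring

/-- the product of the numbers `2 ^ j - 1` -/
noncomputable def mm (i : ℕ) : ℝ := ∏ j ∈ range i, ((2 : ℝ) ^ (j + 1) - 1)

lemma mm_factor (j : ℕ) : (1 : ℝ) ≤ (2 : ℝ) ^ (j + 1) - 1 := by
  have : (1 : ℝ) ≤ 2 ^ j := one_le_pow₀ (by norm_num)
  rw [pow_succ]
  linarith

lemma mm_pos (i : ℕ) : 0 < mm i := by
  unfold mm
  apply Finset.prod_pos
  intro j _
  linarith [mm_factor j]

lemma mm_zero : mm 0 = 1 := by
  unfold mm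
  rw [Finset.prod_range_zero]

lemma mm_succ (i : ℕ) : mm (i + 1) = mm i * (2 ^ (i + 1) - 1) := by
  unfold mm
  rw [Finset.prod_range_succ]

/-- the truncated inclusion-exclusion polynomial -/
noncomputable def SK (K : ℕ) (X : ℝ) : ℝ := ∑ i ∈ range (K + 1), (-1) ^ i / mm i * inj i X

lemma SK_eq (K : ℕ) (X : ℝ) :
    SK K X = (-1) ^ K * (∏ l ∈ range K, (X - 2 ^ (l + 1))) / mm K := by
  induction K with
  | zero =>
    unfold SK
    rw [zero_add, Finset.sum_range_one, inj_zero, mm_zero, Finset.prod_range_zero]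
    norm_num
  | succ K ih =>
    have h1 : SK (K + 1) X = SK K X + (-1) ^ (K + 1) / mm (K + 1) * inj (K + 1) X := by
      unfold SK
      rw [Finset.sum_range_succ]
    have h2 : inj (K + 1) X = (∏ l ∈ range K, (X - 2 ^ (l + 1))) * (X - 1) := by
      unfold inj
      rw [Finset.prod_range_succ', pow_zero]
    have h3 := (mm_pos K).ne'
    have h4 : (2 : ℝ) ^ (K + 1) - 1 ≠ 0 := by
      have := mm_factor K
      linarith
    rw [h1, ih, h2, mm_succ, Finset.prod_range_succ]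
    field_simp
    ring

/-- the inequality of Bonferroni type -/
lemma SK_le {K : ℕ} (hK : Odd K) (r : ℕ) : SK K (2 ^ r) ≤ if r = 0 then 1 else 0 := by
  rw [SK_eq, hK.neg_one_pow]
  have h3 := mm_pos K
  by_cases hr : r = 0
  · subst hr
    rw [if_pos rfl, pow_zero]
    have e : ∏ l ∈ range K, ((1 : ℝ) - 2 ^ (l + 1)) = -mm K := by
      unfold mm
      have e1 : ∀ l ∈ range K, ((1 : ℝ) - 2 ^ (l + 1)) = (-1) * (2 ^ (l + 1) - 1) := by
        intro l _
        ring
      rw [Finset.prod_congr rfl e1, Finset.prod_mul_distrib, Finset.prod_const, Finset.card_range,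
        hK.neg_one_pow]
      ring
    rw [e]
    rw [div_le_one h3]
    linarith
  · rw [if_neg hr]
    by_cases hrK : r ≤ K
    · have e : ∏ l ∈ range K, ((2 : ℝ) ^ r - 2 ^ (l + 1)) = 0 := by
        apply Finset.prod_eq_zero (i := r - 1)
        · rw [Finset.mem_range]
          omega
        · have : r - 1 + 1 = r := by omega
          rw [this, sub_self]
      rw [e]
      simp
    · have e : 0 ≤ ∏ l ∈ range K, ((2 : ℝ) ^ r - 2 ^ (l + 1)) := by
        apply Finset.prod_nonneg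
        intro l hl
        rw [Finset.mem_range] at hl
        have : (2 : ℝ) ^ (l + 1) ≤ 2 ^ r := pow_le_pow_right₀ (by norm_num) (by omega)
        linarith
      apply div_nonpos_of_nonpos_of_nonneg _ h3.le
      linarith

/-- the partial sums of Euler's series -/
noncomputable def cK (K : ℕ) : ℝ := ∑ i ∈ range (K + 1), (-1) ^ i / mm i

/-- **from the moments to the proportion** -/
theorem from_all (R : ℕ → ℝ) (hF : ∃ c : ℝ, 0 < c ∧ ∃ X₀ : ℕ, ∀ X : ℕ, X₀ ≤ X →
      c * X ≤ ((F X).card : ℝ)) (hR : ∀ X, ∀ n ∈ F X, ∃ r : ℕ, R n = 2 ^ r)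
    (hm : ∀ k, Avg F (fun n => R n ^ k) ((Sb k).card : ℝ)) {K : ℕ} (hK : Odd K) (ε : ℝ)
    (hε : 0 < ε) : ∃ X₀ : ℕ, ∀ X : ℕ, X₀ ≤ X →
      (cK K - ε) * ((F X).card : ℝ) ≤ (((F X).filter fun n => R n = 1).card : ℝ) := by
  classical
  obtain ⟨c, hc, X₁, h1⟩ := hF
  have h2 : Avg F (fun n => SK K (R n)) (cK K) := by
    have h3 : Avg F (fun n => ∑ i ∈ range (K + 1), (-1) ^ i / mm i * inj i (R n))
        (∑ i ∈ range (K + 1), (-1) ^ i / mm i * 1) :=
      Avg.sum _ fun i _ => (avg_inj R hm i).smul _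
    refine h3.congr (fun n => rfl) ?_
    unfold cK
    simp
  obtain ⟨X₂, h2⟩ := h2 (ε * c) (by positivity)
  refine ⟨max X₁ X₂, fun X hX => ?_⟩
  have k1 := h1 X ((le_max_left _ _).trans hX)
  have k2 := (abs_le.1 (h2 X ((le_max_right _ _).trans hX))).1
  have k3 : ∑ n ∈ F X, SK K (R n) ≤ ∑ n ∈ F X, (if R n = 1 then (1 : ℝ) else 0) := by
    apply Finset.sum_le_sum
    intro n hn
    obtain ⟨r, hr⟩ := hR X n hn
    rw [hr]
    refine (SK_le hK r).trans ?_
    by_cases h0 : r = 0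
    · rw [if_pos h0, h0, pow_zero, if_pos rfl]
    · rw [if_neg h0]
      split_ifs <;> norm_num
  have k4 : ∑ n ∈ F X, (if R n = 1 then (1 : ℝ) else 0)
      = (((F X).filter fun n => R n = 1).card : ℝ) := by
    rw [Finset.card_filter, Nat.cast_sum]
    apply Finset.sum_congr rfl
    intro n _
    split_ifs <;> simp
  have k5 : ε * c * X ≤ ε * ((F X).card : ℝ) := by
    rw [mul_assoc]
    exact mul_le_mul_of_nonneg_left k1 hε.le
  rw [k4] at k3
  linarith

/-! ### Euler's identity -/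

/-- the partial sums of the series with a parameter -/
noncomputable def gK (K : ℕ) (w : ℝ) : ℝ := ∑ i ∈ range (K + 1), (-w) ^ i / mm i

lemma gK_rec (K : ℕ) (w : ℝ) :
    gK K w = (1 - w / 2) * gK K (w / 2) + (w / 2) * ((-(w / 2)) ^ K / mm K) := by
  induction K with
  | zero =>
    unfold gK
    simp only [zero_add, Finset.sum_range_one, pow_zero, mm_zero]
    ring
  | succ K ih =>
    have h1 : ∀ v : ℝ, gK (K + 1) v = gK K v + (-v) ^ (K + 1) / mm (K + 1) := by
      intro v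
      unfold gK
      rw [Finset.sum_range_succ]
    rw [h1 w, h1 (w / 2), ih, mm_succ]
    have h3 := (mm_pos K).ne'
    have h4 : (2 : ℝ) ^ (K + 1) - 1 ≠ 0 := by
      have := mm_factor K
      linarith
    have e1 : (-w) ^ (K + 1) = 2 ^ (K + 1) * (-(w / 2)) ^ (K + 1) := by
      rw [← mul_pow]
      congr 1
      ring
    rw [e1, pow_succ (-(w / 2)) K]
    field_simp
    ring

/-- the partial products -/
noncomputable def pn (n : ℕ) : ℝ := ∏ j ∈ range n, (1 - (1 / 2 : ℝ) ^ (j + 1))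

lemma factor_bd (j : ℕ) : 0 < (1 : ℝ) - (1 / 2 : ℝ) ^ (j + 1) ∧ (1 : ℝ) - (1 / 2 : ℝ) ^ (j + 1) ≤ 1 := by
  have h1 : (1 / 2 : ℝ) ^ (j + 1) ≤ 1 / 2 := by
    calc (1 / 2 : ℝ) ^ (j + 1) ≤ (1 / 2) ^ 1 :=
          pow_le_pow_of_le_one (by norm_num) (by norm_num) (by omega)
      _ = 1 / 2 := pow_one _
  have h2 : (0 : ℝ) < (1 / 2 : ℝ) ^ (j + 1) := by positivity
  constructor <;> linarith

lemma pn_pos (n : ℕ) : 0 < pn n := by
  unfold pn
  exact Finset.prod_pos fun j _ => (factor_bd j).1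

lemma pn_le_one (n : ℕ) : pn n ≤ 1 := by
  unfold pn
  exact Finset.prod_le_one (fun j _ => (factor_bd j).1.le) (fun j _ => (factor_bd j).2)

lemma mm_ge_one (i : ℕ) : 1 ≤ mm i := by
  unfold mm
  induction i with
  | zero => simp
  | succ i ih =>
    rw [Finset.prod_range_succ]
    nlinarith [mm_factor i]

lemma iter (K n : ℕ) : pn n * gK K ((1 / 2) ^ n) ≤ gK K 1 + (1 - (1 / 2) ^ n) / mm K := by
  induction n with
  | zero =>
    unfold pn
    simp
  | succ n ih =>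
    have h0 : (0 : ℝ) < (1 / 2) ^ n := by positivity
    have h0' : ((1 : ℝ) / 2) ^ n ≤ 1 := pow_le_one₀ (by norm_num) (by norm_num)
    have hm := mm_pos K
    have h1 := gK_rec K ((1 / 2) ^ n)
    have e1 : ((1 : ℝ) / 2) ^ n / 2 = (1 / 2) ^ (n + 1) := by
      rw [pow_succ]
      ring
    rw [e1] at h1
    have e2 : pn (n + 1) = pn n * (1 - (1 / 2) ^ (n + 1)) := by
      unfold pn
      rw [Finset.prod_range_succ]
    have h2 : |(-((1 : ℝ) / 2) ^ (n + 1)) ^ K / mm K| ≤ 1 / mm K := by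
      rw [abs_div, abs_pow, abs_neg, abs_of_pos (by positivity : (0 : ℝ) < (1 / 2) ^ (n + 1)),
        abs_of_pos hm]
      apply div_le_div_of_nonneg_right _ hm.le
      exact pow_le_one₀ (by positivity) (pow_le_one₀ (by norm_num) (by norm_num))
    have h3 := (abs_le.1 h2).1
    have h4 : pn (n + 1) * gK K ((1 / 2) ^ (n + 1))
        = pn n * (gK K ((1 / 2) ^ n) -
          (1 / 2) ^ (n + 1) * ((-(1 / 2) ^ (n + 1)) ^ K / mm K)) := by
      rw [e2, h1]
      ring
    rw [h4, mul_sub]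
    have h5 : -(pn n * ((1 / 2) ^ (n + 1) * ((-(1 / 2) ^ (n + 1)) ^ K / mm K)))
        ≤ (1 / 2) ^ (n + 1) / mm K := by
      have h6 : (0 : ℝ) ≤ pn n * (1 / 2) ^ (n + 1) :=
        mul_nonneg (pn_pos n).le (by positivity)
      calc -(pn n * ((1 / 2) ^ (n + 1) * ((-(1 / 2) ^ (n + 1)) ^ K / mm K)))
          = (pn n * (1 / 2) ^ (n + 1)) * (-((-(1 / 2) ^ (n + 1)) ^ K / mm K)) := by ring
        _ ≤ (pn n * (1 / 2) ^ (n + 1)) * (1 / mm K) :=
            mul_le_mul_of_nonneg_left (by linarith) h6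
        _ ≤ (1 * (1 / 2) ^ (n + 1)) * (1 / mm K) := by
            apply mul_le_mul_of_nonneg_right _ (by positivity)
            exact mul_le_mul_of_nonneg_right (pn_le_one n) (by positivity)
        _ = (1 / 2) ^ (n + 1) / mm K := by ring
    have h7 : (1 - ((1 : ℝ) / 2) ^ (n + 1)) / mm K
        = (1 - (1 / 2) ^ n) / mm K + (1 / 2) ^ (n + 1) / mm K := by
      rw [pow_succ]
      ring
    rw [h7]
    linarith

lemma gK_near (K : ℕ) {w : ℝ} (hw : 0 ≤ w) (hw1 : w ≤ 1) : 1 - (K : ℝ) * w ≤ gK K w := by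
  induction K with
  | zero =>
    unfold gK
    simp [mm_zero]
  | succ K ih =>
    have h1 : gK (K + 1) w = gK K w + (-w) ^ (K + 1) / mm (K + 1) := by
      unfold gK
      rw [Finset.sum_range_succ]
    have h2 : |(-w) ^ (K + 1) / mm (K + 1)| ≤ w := by
      rw [abs_div, abs_pow, abs_neg, abs_of_nonneg hw, abs_of_pos (mm_pos _)]
      calc w ^ (K + 1) / mm (K + 1) ≤ w ^ (K + 1) := div_le_self (by positivity) (mm_ge_one _)
        _ ≤ w ^ 1 := pow_le_pow_of_le_one hw hw1 (by omega)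
        _ = w := pow_one w
    have h3 := (abs_le.1 h2).1
    rw [h1]
    push_cast
    linarith

/-- **Euler**: the partial sums are above every lower bound of the partial products, up to
`1 / mm K` -/
theorem cK_ge {η : ℝ} (hη : ∀ n, η ≤ pn n) (K : ℕ) : η - 1 / mm K ≤ cK K := by
  have e : cK K = gK K 1 := by
    unfold cK gK
    rfl
  rw [e]
  have hm := mm_pos K
  have h1 : ∀ n : ℕ, η - (K : ℝ) * (1 / 2) ^ n ≤ gK K 1 + 1 / mm K := by
    intro n
    have h0 : (0 : ℝ) < (1 / 2) ^ n := by positivity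
    have h0' : ((1 : ℝ) / 2) ^ n ≤ 1 := pow_le_one₀ (by norm_num) (by norm_num)
    have h2 := iter K n
    have h3 := gK_near K h0.le h0'
    have h4 : pn n * (1 - (K : ℝ) * (1 / 2) ^ n) ≤ pn n * gK K ((1 / 2) ^ n) :=
      mul_le_mul_of_nonneg_left h3 (pn_pos n).le
    have h5 : (1 - ((1 : ℝ) / 2) ^ n) / mm K ≤ 1 / mm K := by
      apply div_le_div_of_nonneg_right _ hm.le
      linarith
    have h6 := pn_le_one n
    have h7 : pn n * ((K : ℝ) * (1 / 2) ^ n) ≤ 1 * ((K : ℝ) * (1 / 2) ^ n) :=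
      mul_le_mul_of_nonneg_right h6 (by positivity)
    have h8 := hη n
    rw [mul_sub, mul_one] at h4
    linarith
  have ht : Filter.Tendsto (fun n : ℕ => η - (K : ℝ) * (1 / 2 : ℝ) ^ n) Filter.atTop
      (nhds (η - (K : ℝ) * 0)) := by
    apply Filter.Tendsto.sub tendsto_const_nhds
    apply Filter.Tendsto.const_mul
    exact tendsto_pow_atTop_nhds_zero_of_lt_one (by norm_num) (by norm_num)
  have h2 := le_of_tendsto' ht h1
  rw [mul_zero, sub_zero] at h2
  linarith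

lemma mm_large (K : ℕ) : (K : ℝ) ≤ mm K := by
  induction K with
  | zero =>
    rw [mm_zero]
    norm_num
  | succ K ih =>
    rw [mm_succ]
    have h1 : (K : ℝ) + 1 ≤ 2 ^ K := by
      have : K + 1 ≤ 2 ^ K := K.lt_two_pow_self
      exact_mod_cast this
    have h2 := mm_ge_one K
    have h3 : (K : ℝ) + 1 ≤ 2 ^ (K + 1) - 1 := by
      have h4 : (1 : ℝ) ≤ 2 ^ K := one_le_pow₀ (by norm_num)
      rw [pow_succ]
      linarith
    push_cast
    calc (K : ℝ) + 1 ≤ 2 ^ (K + 1) - 1 := h3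
      _ = 1 * (2 ^ (K + 1) - 1) := (one_mul _).symm
      _ ≤ mm K * (2 ^ (K + 1) - 1) := by
          apply mul_le_mul_of_nonneg_right h2
          linarith [mm_factor K]

/-- **the proportion of the value `1`** -/
theorem from_all' (R : ℕ → ℝ) (hF : ∃ c : ℝ, 0 < c ∧ ∃ X₀ : ℕ, ∀ X : ℕ, X₀ ≤ X →
      c * X ≤ ((F X).card : ℝ)) (hR : ∀ X, ∀ n ∈ F X, ∃ r : ℕ, R n = 2 ^ r)
    (hm : ∀ k, Avg F (fun n => R n ^ k) ((Sb k).card : ℝ)) {η : ℝ} (hη : ∀ n, η ≤ pn n) (ε : ℝ)
    (hε : 0 < ε) : ∃ X₀ : ℕ, ∀ X : ℕ, X₀ ≤ X →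
      (η - ε) * ((F X).card : ℝ) ≤ (((F X).filter fun n => R n = 1).card : ℝ) := by
  obtain ⟨K, hK⟩ := exists_nat_gt (2 / ε)
  have hKodd : Odd (2 * K + 1) := ⟨K, rfl⟩
  obtain ⟨X₀, h⟩ := from_all R hF hR hm hKodd (ε / 2) (by positivity)
  refine ⟨X₀, fun X hX => le_trans ?_ (h X hX)⟩
  apply mul_le_mul_of_nonneg_right _ (Nat.cast_nonneg _)
  have h1 := cK_ge hη (2 * K + 1)
  have h2 : 1 / mm (2 * K + 1) ≤ ε / 2 := by
    rw [div_le_iff₀ (mm_pos _)]
    have h3 := mm_large (2 * K + 1)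
    push_cast at h3
    rw [div_lt_iff₀ hε] at hK
    have h4 : (0 : ℝ) ≤ K := Nat.cast_nonneg _
    nlinarith
  linarith

end Vale.Agent.P017.H994.Q
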