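import Vale.Agent.P017.H994.Q2
import Vale.Agent.P017.H506.Final

/-!
The density from all moments.
-/

namespace Vale.Agent.P017.H994.Q

open Finset Vale.Agent.P017.H506

universe u

/-- the product of all `1 - 2 ^ (-j)`, `j ≥ 1` -/
noncomputable def eta : ℝ := ∏' j : ℕ, (1 - (1 / 2 : ℝ) ^ (j + 1))

lemma mult : Multipliable (fun j : ℕ => (1 - (1 / 2 : ℝ) ^ (j + 1))) := by
  have h : Summable (fun j : ℕ => -(1 / 2 : ℝ) ^ (j + 1)) := by
    apply Summable.neg
    exact (summable_nat_add_iff 1).2 (summable_geometric_of_lt_one (by norm_num) (by norm_num))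
  have := Real.multipliable_one_add_of_summable h
  simpa [sub_eq_add_neg] using this

lemma pn_anti : Antitone pn := by
  apply antitone_nat_of_succ_le
  intro n
  have e : pn (n + 1) = pn n * (1 - (1 / 2) ^ (n + 1)) := by
    unfold pn
    rw [Finset.prod_range_succ]
  rw [e]
  calc pn n * (1 - (1 / 2) ^ (n + 1)) ≤ pn n * 1 :=
        mul_le_mul_of_nonneg_left (factor_bd n).2 (pn_pos n).le
    _ = pn n := mul_one _

lemma eta_tendsto : Filter.Tendsto pn Filter.atTop (nhds eta) := mult.hasProd.tendsto_prod_nat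

lemma eta_le (n : ℕ) : eta ≤ pn n := pn_anti.le_of_tendsto eta_tendsto n

lemma pn_lower (n : ℕ) : (1 : ℝ) / 4 * (1 + (1 / 2) ^ n) ≤ pn (n + 1) := by
  induction n with
  | zero =>
    unfold pn
    rw [zero_add, Finset.prod_range_one]
    norm_num
  | succ n ih =>
    have e : pn (n + 1 + 1) = pn (n + 1) * (1 - (1 / 2) ^ (n + 1 + 1)) := by
      unfold pn
      rw [Finset.prod_range_succ]
    rw [e]
    have h1 := (factor_bd (n + 1)).1
    have h2 : (1 : ℝ) / 4 * (1 + (1 / 2) ^ n) * (1 - (1 / 2) ^ (n + 1 + 1))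
        ≤ pn (n + 1) * (1 - (1 / 2) ^ (n + 1 + 1)) := mul_le_mul_of_nonneg_right ih h1.le
    refine le_trans ?_ h2
    obtain ⟨x, hx⟩ : ∃ x : ℝ, (1 / 2) ^ n = x := ⟨_, rfl⟩
    have hx0 : 0 < x := by rw [← hx]; positivity
    have hx1 : x ≤ 1 := by rw [← hx]; exact pow_le_one₀ (by norm_num) (by norm_num)
    have e1 : ((1 : ℝ) / 2) ^ (n + 1) = x / 2 := by rw [pow_succ, hx]; ring
    have e2 : ((1 : ℝ) / 2) ^ (n + 1 + 1) = x / 4 := by rw [pow_succ, pow_succ, hx]; ring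
    rw [e1, e2, hx]
    nlinarith

lemma eta_pos : 0 < eta := by
  have h : (1 : ℝ) / 4 ≤ eta := by
    refine ge_of_tendsto eta_tendsto (Filter.eventually_atTop.2 ⟨1, fun n hn => ?_⟩)
    obtain ⟨m, rfl⟩ : ∃ m, n = m + 1 := ⟨n - 1, by omega⟩
    refine le_trans ?_ (pn_lower m)
    have : (0 : ℝ) < (1 / 2) ^ m := by positivity
    linarith
  linarith

lemma eta_le_one : eta ≤ 1 := (eta_le 0).trans (pn_le_one 0)

lemma Sb_zero : (H6.Sb 0).card = 1 := by
  have h := pow_eq 0 (0 : ℝ)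
  have h1 : ∀ S ∈ H6.Sb 0, inj (cd S) (0 : ℝ) = 1 := by
    intro S _
    have : cd S = 0 := by
      unfold cd
      omega
    rw [this, inj_zero]
  rw [Finset.sum_congr rfl h1, Finset.sum_const, nsmul_eq_mul, mul_one, pow_zero] at h
  exact_mod_cast h.symm

/-- all moments -/
lemma avgG (tp cl k : ℕ) :
    Avg (GX tp cl) (fun n => (((R3 tp cl n).card : ℝ) / 2) ^ k) ((H6.Sb k).card : ℝ) := by
  classical
  by_cases hk : k = 0
  · subst hk
    refine (Avg.one).congr (fun n => by rw [pow_zero]) ?_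
    rw [Sb_zero]
    norm_num
  · have h1 : Avg (GX tp cl) (fun n => ((R3 tp cl n).card : ℝ) ^ k) (cntT tp cl k) :=
      fun ε hε => momG tp cl k (Nat.one_le_iff_ne_zero.2 hk) ε hε
    refine (h1.smul (1 / 2 ^ k)).congr (fun n => ?_) ?_
    · rw [div_pow]
      ring
    · have h2 : cntT tp cl k = 2 ^ k * ((H6.Sb k).card : ℝ) := H6.cnt tp cl k
      rw [h2]
      field_simp

/-- the density in each of the six families -/
theorem densQ (tp cl : ℕ) (htp : tp ≤ 2) (ε : ℝ) (hε : 0 < ε) : ∃ X₀ : ℕ, ∀ X : ℕ, X₀ ≤ X →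
      (eta - ε) * ((GX tp cl X).card : ℝ) ≤
        (((GX tp cl X).filter fun n => (R3 tp cl n).card = 2).card : ℝ) := by
  classical
  obtain ⟨X₀, h⟩ := from_all' (F := GX tp cl) (fun n => ((R3 tp cl n).card : ℝ) / 2)
    (GX_card tp cl htp) (by
      intro X n hn
      obtain ⟨j, hj, h2⟩ := R3_pow (T13.mem_GX.1 hn).2
      refine ⟨j - 1, ?_⟩
      rw [h2]
      have e : j = (j - 1) + 1 := by omega
      conv_lhs => rw [e]
      push_cast
      rw [pow_succ]
      ring) (avgG tp cl) eta_le ε hε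
  refine ⟨X₀, fun X hX => (h X hX).trans (le_of_eq ?_)⟩
  congr 2
  apply Finset.filter_congr
  intro n _
  constructor
  · intro h1
    have h2 : ((R3 tp cl n).card : ℝ) = 2 := by linarith
    exact_mod_cast h2
  · intro h1
    rw [h1]
    norm_num

/-- **the density** -/
theorem dens_final' (ε : ℝ) (hε : 0 < ε) : ∃ X₀ : ℕ, ∀ X : ℕ, X₀ ≤ X →
    (25 / 48 * eta - ε) * ((AllX X).card : ℝ) ≤ ((TX0.{u} X).card : ℝ) := by
  obtain ⟨e, he⟩ : ∃ e, e = min (ε / 4) eta := ⟨_, rfl⟩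
  have hη := eta_pos
  have hη1 := eta_le_one
  have he0 : 0 < e := by rw [he]; exact lt_min (by positivity) hη
  have he1 : e ≤ ε / 4 := by rw [he]; exact min_le_left _ _
  have he2 : e ≤ eta := by rw [he]; exact min_le_right _ _
  obtain ⟨a1, h1⟩ := densQ 0 0 (by norm_num) e he0
  obtain ⟨a2, h2⟩ := densQ 0 1 (by norm_num) e he0
  obtain ⟨a3, h3⟩ := densQ 1 0 (by norm_num) e he0
  obtain ⟨a4, h4⟩ := densQ 1 1 (by norm_num) e he0
  obtain ⟨a5, h5⟩ := densQ 2 0 (by norm_num) e he0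
  obtain ⟨a6, h6⟩ := densQ 2 1 (by norm_num) e he0
  obtain ⟨a7, h7⟩ := count6 e he0
  obtain ⟨a8, h8⟩ := AllX_big (12 / ε)
  refine ⟨8 * (a1 + a2 + a3 + a4 + a5 + a6 + a7 + a8) + 8, fun X hX => ?_⟩
  have p1 := h1 X (by omega)
  have p2 := h2 X (by omega)
  have p3 := h3 (X / 4) (by omega)
  have p4 := h4 (X / 4) (by omega)
  have p5 := h5 (X / 8) (by omega)
  have p6 := h6 (X / 8) (by omega)
  have p7 := h7 X (by omega)
  have p8 := h8 X (by omega)
  have q1 := part.{u} (tp := 0) (cl := 0) (Or.inl rfl) X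
  have q2 := part.{u} (tp := 0) (cl := 1) (Or.inr rfl) X
  have q3 := part.{u} (tp := 1) (cl := 0) (Or.inl rfl) X
  have q4 := part.{u} (tp := 1) (cl := 1) (Or.inr rfl) X
  have q5 := part.{u} (tp := 2) (cl := 0) (Or.inl rfl) X
  have q6 := part.{u} (tp := 2) (cl := 1) (Or.inr rfl) X
  have b0 : bd0 0 X = X := rfl
  have b1 : bd0 1 X = X / 4 := rfl
  have b2 : bd0 2 X = X / 8 := rfl
  rw [b0] at q1 q2
  rw [b1] at q3 q4
  rw [b2] at q5 q6
  have hs := sum_parts.{u} X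
  rw [Finset.sum_product] at hs
  simp only [Finset.sum_range_succ, Finset.sum_range_zero, zero_add] at hs
  have hA0 : 0 ≤ ((AllX X).card : ℝ) := Nat.cast_nonneg _
  rw [div_le_iff₀ hε] at p8
  generalize ((AllX X).card : ℝ) = A at *
  generalize ((TX0.{u} X).card : ℝ) = T at *
  obtain ⟨g, hg⟩ : ∃ g : ℝ, g = ((GX 0 0 X).card : ℝ) + (GX 0 1 X).card +
      (GX 1 0 (X / 4)).card + (GX 1 1 (X / 4)).card + (GX 2 0 (X / 8)).card +
      (GX 2 1 (X / 8)).card := ⟨_, rfl⟩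
  rw [← hg] at p7
  have s1 : (eta - e) * g ≤ T + 6 := by
    rw [hg, hs]
    linarith
  have s2 : (eta - e) * ((25 / 48 - e) * A) ≤ (eta - e) * g :=
    mul_le_mul_of_nonneg_left p7 (by linarith)
  have s3 : (25 / 48 * eta - 2 * e) * A ≤ (eta - e) * ((25 / 48 - e) * A) := by
    have t1 : 0 ≤ e * A := mul_nonneg he0.le hA0
    have t2 : 0 ≤ e * (e * A) := mul_nonneg he0.le t1
    have t3 : eta * (e * A) ≤ 1 * (e * A) := mul_le_mul_of_nonneg_right hη1 t1
    nlinarith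
  have s4 : 6 ≤ (ε / 2) * A := by linarith
  have s5 : 2 * e * A ≤ ε / 2 * A := mul_le_mul_of_nonneg_right (by linarith) hA0
  linarith

end Vale.Agent.P017.H994.Q
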