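import Vale.Agent.P017.H506.E1

/-!
The engine with a real character of modulus dividing `120` on every coordinate, first part.
-/

namespace Vale.Agent.P017.H994

open Finset Function Vale.Agent.P014.FM Vale.Agent.P017.H506
open Vale.Agent.P014.H580 (J_abs J_mul_left J_mul_right bilin harm_le)

/-- the even real character modulo `8` -/
noncomputable def chi8 (n : ℕ) : ℝ :=
  if n % 8 = 1 ∨ n % 8 = 7 then 1 else if n % 8 = 3 ∨ n % 8 = 5 then -1 else 0

lemma chi8_abs (n : ℕ) : |chi8 n| ≤ 1 := by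
  unfold chi8
  split_ifs <;> simp

lemma chi8_one : chi8 1 = 1 := by
  unfold chi8
  rw [if_pos (Or.inl rfl)]

lemma chi8_per (n k : ℕ) : chi8 (n + 8 * k) = chi8 n := by
  unfold chi8
  rw [Nat.add_mul_mod_self_left]

lemma chi8_mul (m n : ℕ) : chi8 (m * n) = chi8 m * chi8 n := by
  unfold chi8
  have h : m * n % 8 = (m % 8) * (n % 8) % 8 := Nat.mul_mod m n 8
  have hm : m % 8 < 8 := Nat.mod_lt _ (by norm_num)
  have hn : n % 8 < 8 := Nat.mod_lt _ (by norm_num)
  rw [h]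
  generalize m % 8 = a at hm ⊢
  generalize n % 8 = b at hn ⊢
  interval_cases a <;> interval_cases b <;> norm_num

/-- the character attached to one coordinate -/
noncomputable def ps (e c n : ℕ) : ℝ := chi8 n ^ e * J n c

lemma ps_abs (e c n : ℕ) : |ps e c n| ≤ 1 := by
  unfold ps
  rw [abs_mul, abs_pow]
  exact mul_le_one₀ (pow_le_one₀ (abs_nonneg _) (chi8_abs n)) (abs_nonneg _) (J_abs n c)

lemma ps_one (e c : ℕ) : ps e c 1 = 1 := by
  unfold ps
  rw [chi8_one, one_pow, one_mul]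
  unfold Vale.Agent.P014.H580.J
  rw [Nat.cast_one, jacobiSym.one_left]
  norm_num

lemma ps_mul (e c m n : ℕ) : ps e c (m * n) = ps e c m * ps e c n := by
  unfold ps
  rw [chi8_mul, J_mul_left, mul_pow]
  ring

section general

variable {ι : Type*} [Fintype ι]

/-- the product of the characters -/
noncomputable def psi (es cs : ι → ℕ) (D : ι → ℕ) : ℝ := ∏ u, ps (es u) (cs u) (D u)

lemma psi_abs (es cs : ι → ℕ) (D : ι → ℕ) : |psi es cs D| ≤ 1 := by
  unfold psi
  rw [Finset.abs_prod]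
  exact Finset.prod_le_one (fun _ _ => abs_nonneg _) (fun u _ => ps_abs _ _ _)

/-- the full summand -/
noncomputable def gC (N : ℕ) (P : ι → ι → ZMod 2) (es cs : ι → ℕ) (i Q : ℕ) (D : ι → ℕ) : ℝ :=
  psi es cs D * gN N P i Q D

variable [DecidableEq ι]

lemma psi_upd (es cs : ι → ℕ) (v : ι) (x : ℕ) (D : ι → ℕ) (hDv : D v = 1) :
    psi es cs (update D v x) = ps (es v) (cs v) x * psi es cs D := by
  unfold psi
  rw [← Finset.mul_prod_erase univ _ (Finset.mem_univ v),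
    ← Finset.mul_prod_erase univ (fun u => ps (es u) (cs u) (D u)) (Finset.mem_univ v),
    update_self, hDv, ps_one, one_mul]
  congr 1
  apply Finset.prod_congr rfl
  intro u hu
  rw [update_of_ne (Finset.ne_of_mem_erase hu)]

/-- the summand in two linked coordinates -/
lemma gC_sep {N : ℕ} (hN : 1 ≤ N) (P : ι → ι → ZMod 2) (es cs : ι → ℕ) (i Q : ℕ)
    (hi : i ≠ 0) (u v : ι) (huv : u ≠ v) (h1 : P u v = 1) (h2 : P v u ≠ 1) (D : ι → ℕ)
    (hDu : D u = 1) (hDv : D v = 1) :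
    ∃ A B : ℕ → ℝ, (∀ x, |A x| ≤ 1) ∧ (∀ y, |B y| ≤ 1) ∧ (∀ x, A x ≠ 0 → Odd x ∧ Squarefree x) ∧
      (∀ y, B y ≠ 0 → Odd y ∧ Squarefree y) ∧
      ∀ x y, 1 ≤ y → gC N P es cs i Q (update (update D v y) u x) = A x * B y * J x y := by
  obtain ⟨A, B, hA, hB, hA2, hB2, h⟩ := gN_sep hN P i Q hi u v huv h1 h2 D hDu hDv
  refine ⟨fun x => ps (es u) (cs u) x * A x, fun y => ps (es v) (cs v) y * psi es cs D * B y,
    ?_, ?_, ?_, ?_, ?_⟩
  · intro x
    rw [abs_mul]
    exact mul_le_one₀ (ps_abs _ _ _) (abs_nonneg _) (hA x)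
  · intro y
    rw [abs_mul, abs_mul]
    exact mul_le_one₀ (mul_le_one₀ (ps_abs _ _ _) (abs_nonneg _) (psi_abs _ _ _)) (abs_nonneg _)
      (hB y)
  · intro x hx
    exact hA2 x (right_ne_zero_of_mul hx)
  · intro y hy
    exact hB2 y (right_ne_zero_of_mul hy)
  · intro x y hy
    unfold gC
    rw [h x y hy, psi_upd es cs u x _ (by rw [update_of_ne huv]; exact hDu),
      psi_upd es cs v y _ hDv]
    ring

/-- the contribution of one linked pair of large coordinates -/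
theorem S1_oneC : ∃ C : ℝ, 1 ≤ C ∧ ∀ (N : ℕ) (P : ι → ι → ZMod 2) (es cs : ι → ℕ) (i Q : ℕ) (u v : ι)
    (X Z : ℕ) (H : (ι → ℕ) → ℝ), 1 ≤ N → i ≠ 0 → u ≠ v → P u v = 1 → P v u ≠ 1 → SepH u v H →
    1 ≤ X → 1 ≤ Z →
    |∑ D ∈ TX ι X, gC N P es cs i Q D * (H D * bd Z u v D)|
      ≤ C * X * (1 + Real.log X) ^ (Fintype.card ι + 1) * (Z : ℝ) ^ (-(1 : ℝ) / 32) := by
  obtain ⟨C, hC, hbil⟩ := bilin
  refine ⟨C, hC, ?_⟩
  intro N₀ P es cs i Q u v X Z H hN₀ hi huv h1 h2 hH hX hZ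
  have hX1 : (1 : ℝ) ≤ X := by exact_mod_cast hX
  have hlogX : 0 ≤ Real.log X := Real.log_nonneg hX1
  have hZ0 : (0 : ℝ) < Z := by exact_mod_cast hZ
  have hC0 : (0 : ℝ) ≤ C := by linarith
  rw [sum_fib2T X u v huv]
  refine (Finset.abs_sum_le_sum_abs _ _).trans ?_
  have hone : ∀ D ∈ (TX ι X).filter (fun D => D u = 1 ∧ D v = 1),
      |∑ y ∈ Icc 1 (X / ∏ w, D w), ∑ x ∈ Icc 1 (X / (∏ w, D w) / y),
        gC N₀ P es cs i Q (update (update D v y) u x) *
          (H (update (update D v y) u x) * bd Z u v (update (update D v y) u x))|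
      ≤ C * X * (1 + Real.log X) * (Z : ℝ) ^ (-(1 : ℝ) / 32) * (1 / ((∏ w, D w : ℕ) : ℝ)) := by
    intro D hD
    rw [Finset.mem_filter, mem_TX] at hD
    obtain ⟨⟨hD1, hD2⟩, hDu, hDv⟩ := hD
    have hp := one_le_prod hD1
    have hp0 : (0 : ℝ) < ((∏ w, D w : ℕ) : ℝ) := by exact_mod_cast hp
    obtain ⟨A, B, hA, hB, hA2, hB2, h⟩ := gC_sep hN₀ P es cs i Q hi u v huv h1 h2 D hDu hDv
    obtain ⟨A', B', hA', hB', h'⟩ := hH D
    dsimp only at h'
    set N := X / ∏ w, D w with hN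
    have hN1 : 1 ≤ N := by
      rw [hN, Nat.one_le_div_iff (by omega)]
      exact hD2
    set a : ℕ → ℝ := fun x => if Z ≤ x then A x * A' x else 0 with ha
    set b : ℕ → ℝ := fun y => if Z ≤ y then B y * B' y else 0 with hb
    have hterm : ∑ y ∈ Icc 1 N, ∑ x ∈ Icc 1 (N / y),
        gC N₀ P es cs i Q (update (update D v y) u x) *
          (H (update (update D v y) u x) * bd Z u v (update (update D v y) u x))
        = ∑ y ∈ Icc 1 N, ∑ x ∈ Icc 1 (N / y), a x * b y * J x y := by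
      apply Finset.sum_congr rfl
      intro y hy
      apply Finset.sum_congr rfl
      intro x _
      rw [Finset.mem_Icc] at hy
      rw [h x y hy.1, h' x y]
      unfold bd
      rw [update_self, update_of_ne huv.symm, update_self, ha, hb]
      dsimp only
      by_cases hx : Z ≤ x
      · by_cases hy' : Z ≤ y
        · rw [if_pos ⟨hx, hy'⟩, if_pos hx, if_pos hy']
          ring
        · rw [if_neg (fun hc => hy' hc.2), if_neg hy']
          ring
      · rw [if_neg (fun hc => hx hc.1), if_neg hx]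
        ring
    rw [hterm]
    have ha1 : ∀ x, |a x| ≤ 1 := by
      intro x
      rw [ha]
      dsimp only
      split_ifs
      · rw [abs_mul]
        exact mul_le_one₀ (hA x) (abs_nonneg _) (hA' x)
      · simp
    have hb1 : ∀ x, |b x| ≤ 1 := by
      intro x
      rw [hb]
      dsimp only
      split_ifs
      · rw [abs_mul]
        exact mul_le_one₀ (hB x) (abs_nonneg _) (hB' x)
      · simp
    have ha2 : ∀ x, a x ≠ 0 → Odd x ∧ Squarefree x ∧ Z ≤ x := by
      intro x hx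
      rw [ha] at hx
      dsimp only at hx
      by_cases hZx : Z ≤ x
      · rw [if_pos hZx] at hx
        have := hA2 x (left_ne_zero_of_mul hx)
        exact ⟨this.1, this.2, hZx⟩
      · rw [if_neg hZx] at hx
        exact absurd rfl hx
    have hb2 : ∀ x, b x ≠ 0 → Odd x ∧ Squarefree x ∧ Z ≤ x := by
      intro x hx
      rw [hb] at hx
      dsimp only at hx
      by_cases hZx : Z ≤ x
      · rw [if_pos hZx] at hx
        have := hB2 x (left_ne_zero_of_mul hx)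
        exact ⟨this.1, this.2, hZx⟩
      · rw [if_neg hZx] at hx
        exact absurd rfl hx
    refine (hbil N Z a b ha1 hb1 ha2 hb2 hZ hN1).trans ?_
    have hNle : (N : ℝ) ≤ X / ((∏ w, D w : ℕ) : ℝ) := Nat.cast_div_le
    have hN0 : (0 : ℝ) < N := by exact_mod_cast hN1
    have hNX : (N : ℝ) ≤ X := by exact_mod_cast Nat.div_le_self _ _
    have hlog : Real.log N ≤ Real.log X := Real.log_le_log hN0 hNX
    calc C * (N : ℝ) * (1 + Real.log N) * (Z : ℝ) ^ (-(1 : ℝ) / 32)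
        ≤ C * (X / ((∏ w, D w : ℕ) : ℝ)) * (1 + Real.log X) * (Z : ℝ) ^ (-(1 : ℝ) / 32) := by
          have h0 : 0 ≤ 1 + Real.log N := by
            have := Real.log_nonneg (by exact_mod_cast hN1 : (1 : ℝ) ≤ N)
            linarith
          gcongr
      _ = _ := by ring
  refine (Finset.sum_le_sum hone).trans ?_
  rw [← Finset.mul_sum]
  have hsum : ∑ D ∈ (TX ι X).filter (fun D => D u = 1 ∧ D v = 1), 1 / ((∏ w, D w : ℕ) : ℝ)
      ≤ (1 + Real.log X) ^ (Fintype.card ι) := by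
    refine le_trans ?_ (sum_recipT (ι := ι) X)
    apply Finset.sum_le_sum_of_subset_of_nonneg
    · exact Finset.filter_subset _ _
    · intro D _ _
      positivity
  calc C * X * (1 + Real.log X) * (Z : ℝ) ^ (-(1 : ℝ) / 32) *
        ∑ D ∈ (TX ι X).filter (fun D => D u = 1 ∧ D v = 1), 1 / ((∏ w, D w : ℕ) : ℝ)
      ≤ C * X * (1 + Real.log X) * (Z : ℝ) ^ (-(1 : ℝ) / 32) *
        (1 + Real.log X) ^ (Fintype.card ι) := by gcongr
    _ = _ := by ring

/-- all linked pairs -/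
theorem S1C : ∃ C : ℝ, 1 ≤ C ∧ ∀ (N : ℕ) (P : ι → ι → ZMod 2) (es cs : ι → ℕ) (i Q₀ : ℕ)
    (X Z : ℕ) (Q : Finset (ι × ι)), (∀ q ∈ Q, P q.1 q.2 = 1 ∧ P q.2 q.1 ≠ 1) → 1 ≤ N → i ≠ 0 →
    1 ≤ X → 1 ≤ Z →
    |∑ D ∈ TX ι X, gC N P es cs i Q₀ D - ∑ D ∈ TX ι X, gC N P es cs i Q₀ D * NQ Z Q D|
      ≤ Q.card * (C * X * (1 + Real.log X) ^ (Fintype.card ι + 1) * (Z : ℝ) ^ (-(1 : ℝ) / 32)) := by
  obtain ⟨C, hC, h⟩ := S1_oneC (ι := ι)
  refine ⟨C, hC, ?_⟩
  intro N P es cs i Q₀ X Z Q hQ hN hi hX hZ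
  induction Q using Finset.induction_on with
  | empty => simp [NQ]
  | insert q Q hq ih =>
    have h1 := ih (fun q' hq' => hQ q' (Finset.mem_insert_of_mem hq'))
    have h2 := hQ q (Finset.mem_insert_self _ _)
    have huv : q.1 ≠ q.2 := by
      intro h3
      rw [h3] at h2
      exact h2.2 h2.1
    have hsep : SepH q.1 q.2 (NQ Z Q) :=
      NQ_sep P Z Q q.1 q.2 huv (fun q' hq' => hQ q' (Finset.mem_insert_of_mem hq')) h2.1 hq
    have h3 := h N P es cs i Q₀ q.1 q.2 X Z (NQ Z Q) hN hi huv h2.1 h2.2 hsep hX hZ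
    have h4 : ∑ D ∈ TX ι X, gC N P es cs i Q₀ D * NQ Z (insert q Q) D
        = ∑ D ∈ TX ι X, gC N P es cs i Q₀ D * NQ Z Q D
          - ∑ D ∈ TX ι X, gC N P es cs i Q₀ D * (NQ Z Q D * bd Z q.1 q.2 D) := by
      rw [← Finset.sum_sub_distrib]
      apply Finset.sum_congr rfl
      intro D _
      have : NQ Z (insert q Q) D = (1 - bd Z q.1 q.2 D) * NQ Z Q D := by
        unfold NQ
        rw [Finset.prod_insert hq]
      rw [this]
      ring
    rw [h4, Finset.card_insert_of_notMem hq]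
    push_cast
    have h5 : ∑ D ∈ TX ι X, gC N P es cs i Q₀ D - (∑ D ∈ TX ι X, gC N P es cs i Q₀ D * NQ Z Q D
          - ∑ D ∈ TX ι X, gC N P es cs i Q₀ D * (NQ Z Q D * bd Z q.1 q.2 D))
        = (∑ D ∈ TX ι X, gC N P es cs i Q₀ D - ∑ D ∈ TX ι X, gC N P es cs i Q₀ D * NQ Z Q D)
          + ∑ D ∈ TX ι X, gC N P es cs i Q₀ D * (NQ Z Q D * bd Z q.1 q.2 D) := by ring
    rw [h5]
    refine (abs_add_le _ _).trans ?_
    linarith

end general

end Vale.Agent.P017.H994
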