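import Vale.Agent.P017.H994.T1
import Vale.Agent.P017.H506.E3
import Vale.Agent.P014.H687.FM3sw

/-!
The engine with a real character of modulus dividing `120` on every coordinate, second part: a large
coordinate linked to a small nontrivial coordinate.
-/

namespace Vale.Agent.P017.H994

open Finset Function Vale.Agent.P014.FM Vale.Agent.P017.H506
open Vale.Agent.P014.H580 (J_abs J_mul_left J_mul_right bilin harm_le)
open Vale.Agent.P014.H687.FM (fm2b sqf mem_sqf NPChar SW fm3)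

/-- the characters used -/
noncomputable def cc (b a Q n : ℕ) : ℝ := chi8 n ^ b * (chi4 n ^ a * J n Q)

/-- the character sum -/
noncomputable def SJC (b a Q r j N : ℕ) : ℝ :=
  ∑ n ∈ (Icc 1 N).filter (fun n => Squarefree n ∧ n.Coprime r ∧ n.primeFactors.card = j),
    cc b a Q n

/-- the character sum estimate -/
def CharC (X Y J0 : ℕ) (W M : ℝ) : Prop :=
  ∀ b a Q r j N : ℕ, a ≠ 0 → Odd Q → ¬ IsSquare Q → (8 * Q : ℝ) ≤ W → 1 ≤ r → r ≤ X → j ≤ J0 →
    Y ≤ N + 1 → N ≤ X → |SJC b a Q r j N| ≤ N / M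

theorem npchar_C {Q : ℕ} (hQ : Odd Q) (hs : ¬ IsSquare Q) (e : ℕ) {a : ℕ} (ha : 1 ≤ a) :
    NPChar (8 * Q) (fun m => ((cc e a Q m : ℝ) : ℂ)) := by
  have hQ0 : Q ≠ 0 := by rintro rfl; exact absurd hQ (by decide)
  obtain ⟨n, hn⟩ := Vale.Agent.P014.H580.exists_neg hQ hs
  have hcop : Nat.Coprime Q 8 := by
    have : Nat.Coprime Q 2 := Nat.coprime_two_right.2 hQ
    exact Nat.Coprime.pow_right 3 this
  obtain ⟨b, hb1, hb2⟩ := Nat.chineseRemainder hcop n 1
  have hb8 : b % 8 = 1 := hb2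
  have hJb : J b Q = -1 := by
    unfold Vale.Agent.P014.H580.J
    have h1 : jacobiSym (b : ℤ) Q = jacobiSym (n : ℤ) Q := by
      rw [jacobiSym.mod_left, jacobiSym.mod_left (n : ℤ)]
      congr 1
      exact_mod_cast hb1
    rw [h1, hn]
    simp
  have hcb : chi4 b = 1 := by
    have h1 : b % 4 = 1 := by omega
    unfold chi4
    rw [if_pos h1]
  have hcb8 : chi8 b = 1 := by
    unfold chi8
    rw [if_pos (Or.inl hb8)]
  refine NPChar.of_ne_one (b := b) (by omega) ?_ ?_ ?_ ?_ ?_ ?_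
  · intro m k
    unfold cc
    rw [chi8_mul, Vale.Agent.P014.FM.chi4_mul, Vale.Agent.P014.H580.J_mul_left]
    push_cast
    ring
  · intro m
    unfold cc
    have h1 : chi8 (m + 8 * Q) = chi8 m := chi8_per m Q
    have h2 : chi4 (m + 8 * Q) = chi4 m := by
      have h3 : m + 8 * Q = m + 4 * (2 * Q) := by ring
      rw [h3]
      exact Vale.Agent.P014.H687.FM.chi4_per m (2 * Q)
    rw [h1, h2, Vale.Agent.P014.H687.FM.J_per m 8 Q]
  · intro m hm
    unfold cc
    rcases Nat.mod_two_eq_zero_or_one m with h | h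
    · rw [Vale.Agent.P014.H687.FM.chi4_even h, zero_pow (by omega)]
      simp
    · have : ¬ m.Coprime Q := by
        intro hc
        refine hm (Nat.Coprime.mul_right ?_ hc)
        exact Nat.Coprime.pow_right 3 (Nat.coprime_two_right.2 (Nat.odd_iff.2 h))
      rw [Vale.Agent.P014.H687.FM.J_zero hQ0 this]
      simp
  · intro m
    unfold cc
    rw [Complex.norm_real, Real.norm_eq_abs, abs_mul, abs_mul, abs_pow, abs_pow]
    exact mul_le_one₀ (pow_le_one₀ (abs_nonneg _) (chi8_abs m))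
      (mul_nonneg (pow_nonneg (abs_nonneg _) _) (abs_nonneg _))
      (mul_le_one₀ (pow_le_one₀ (abs_nonneg _) (Vale.Agent.P014.H687.FM.chi4_abs m))
        (abs_nonneg _) (Vale.Agent.P014.H580.J_abs m Q))
  · unfold cc
    rw [hJb, hcb, hcb8]
    norm_num
  · refine Nat.Coprime.mul_right ?_ ?_
    · refine Nat.Coprime.pow_right 3 (Nat.coprime_two_right.2 (Nat.odd_iff.2 ?_))
      omega
    · by_contra h
      have := Vale.Agent.P014.H687.FM.J_zero hQ0 h
      rw [this] at hJb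
      norm_num at hJb

/-- the character sum estimate from Siegel-Walfisz -/
lemma charC (hsw : SW) (K η : ℝ) (hK : 1 ≤ K) (hη : 0 < η) : ∃ X₀ : ℝ, ∀ X Y J0 : ℕ, X₀ ≤ X →
    3 ≤ X → Real.exp ((Real.log X) ^ η) + 1 ≤ Y → (J0 : ℝ) ≤ K * Real.log (Real.log X) →
    CharC X Y J0 ((Real.log X) ^ K) ((Real.log X) ^ K) := by
  obtain ⟨X₀, h⟩ := fm3 hsw K η hK hη
  refine ⟨X₀, ?_⟩
  intro X Y J0 hX hX3 hY hJ0 b a Q r j N ha hQo hQs hQW hr hrX hj hYN hNX
  have hX1 : (1 : ℝ) ≤ X := by exact_mod_cast (by omega : 1 ≤ X)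
  have hXK : (X : ℝ) ≤ (X : ℝ) ^ K := by
    calc (X : ℝ) = (X : ℝ) ^ (1 : ℝ) := (Real.rpow_one _).symm
      _ ≤ (X : ℝ) ^ K := Real.rpow_le_rpow_of_exponent_le hX1 hK
  have hNR : (N : ℝ) ≤ X := by exact_mod_cast hNX
  have hrR : (r : ℝ) ≤ X := by exact_mod_cast hrX
  have hjR : (j : ℝ) ≤ J0 := by exact_mod_cast hj
  have hYR : (Y : ℝ) ≤ N + 1 := by exact_mod_cast hYN
  have h1 := h X hX (8 * Q) (fun m => ((cc b a Q m : ℝ) : ℂ)) (by push_cast; exact hQW)
    (npchar_C hQo hQs b (by omega)) r hr (hrR.trans hXK) j (hjR.trans hJ0) N (by linarith)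
    (hNR.trans hXK)
  rw [Nat.floor_natCast] at h1
  rw [← Complex.ofReal_sum, Complex.norm_real, Real.norm_eq_abs] at h1
  exact h1

section general

variable {ι : Type*} [Fintype ι]

lemma gC_abs (N : ℕ) (P : ι → ι → ZMod 2) (es cs : ι → ℕ) (i Q : ℕ) (D : ι → ℕ) :
    |gC N P es cs i Q D| ≤ sqh (qN N) D := by
  unfold gC
  rw [abs_mul]
  calc |psi es cs D| * |gN N P i Q D| ≤ 1 * |gN N P i Q D| :=
        mul_le_mul_of_nonneg_right (psi_abs es cs D) (abs_nonneg _)
    _ = |gN N P i Q D| := one_mul _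
    _ ≤ _ := gN_abs N P i Q D

variable [DecidableEq ι]

/-- the summand as a function of one coordinate -/
lemma one_varC {N : ℕ} (hN : 1 ≤ N) (P : ι → ι → ZMod 2) (hP : ∀ w, P w w = 0) (es cs : ι → ℕ)
    (i Q : ℕ) (hi : i ≠ 0) (hQ : Q ≠ 0) (v : ι) (hcs : cs v ≠ 0) (D : ι → ℕ) (hDv : D v = 1)
    (hodd : Odd (∏ u, D u)) :
    ∃ c : ℝ, |c| ≤ 1 ∧ ∃ a : ℕ, a ≠ 0 ∧ ∀ x, gC N P es cs i Q (update D v x)
      = c * (open Classical in (if Squarefree x ∧ Nat.Coprime x (∏ u, D u) then qN N x else 0) *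
        cc (es v) a (Q * cs v * lprod P v D) x) := by
  classical
  obtain ⟨c, hc, a, ha, h⟩ := one_varN hN P hP i Q hi hQ v D hDv hodd
  obtain ⟨hL0, -⟩ := wt2_ty P hP v D hodd
  refine ⟨psi es cs D * c, ?_, a, ha, ?_⟩
  · rw [abs_mul]
    exact mul_le_one₀ (psi_abs _ _ _) (abs_nonneg _) hc
  intro x
  unfold gC
  rw [h x, psi_upd es cs v x D hDv]
  unfold cc ps
  rw [J_mul_right _ _ _ hQ hL0, J_mul_right _ _ _ (mul_ne_zero hQ hcs) hL0,
    J_mul_right _ _ _ hQ hcs]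
  ring

end general

open Classical in
/-- splitting according to the number of prime factors -/
lemma split_sumC (N b a Q r J0 M Y : ℕ) (hY : 1 ≤ Y) (hYM : Y ≤ M) :
    ∑ x ∈ Icc 1 M, (if x.primeFactors.card ≤ J0 then
        (if Y ≤ x then ((if Squarefree x ∧ Nat.Coprime x r then qN N x else 0) *
          cc b a Q x) else 0) else 0)
      = ∑ j ∈ range (J0 + 1), ((1 : ℝ) / N) ^ j * (SJC b a Q r j M - SJC b a Q r j (Y - 1)) := by
  have h1 : ∀ j, SJC b a Q r j M - SJC b a Q r j (Y - 1)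
      = ∑ x ∈ Icc 1 M, (if Y ≤ x then (if Squarefree x ∧ x.Coprime r ∧ x.primeFactors.card = j
          then cc b a Q x else 0) else 0) := by
    intro j
    unfold SJC
    rw [Finset.sum_filter, Finset.sum_filter]
    have h2 : Icc 1 M = Icc 1 (Y - 1) ∪ Icc Y M := by
      ext x
      simp only [mem_union, mem_Icc]
      omega
    have hd : Disjoint (Icc 1 (Y - 1)) (Icc Y M) := by
      rw [Finset.disjoint_left]
      intro x hx hx'
      simp only [mem_Icc] at hx hx'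
      omega
    rw [h2, Finset.sum_union hd, Finset.sum_union hd]
    have h3 : ∑ x ∈ Icc 1 (Y - 1), (if Y ≤ x then (if Squarefree x ∧ x.Coprime r ∧
        x.primeFactors.card = j then cc b a Q x else 0) else 0) = 0 := by
      apply Finset.sum_eq_zero
      intro x hx
      rw [mem_Icc] at hx
      rw [if_neg (by omega)]
    rw [h3, zero_add]
    have h4 : ∑ x ∈ Icc Y M, (if Y ≤ x then (if Squarefree x ∧ x.Coprime r ∧
        x.primeFactors.card = j then cc b a Q x else 0) else 0)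
        = ∑ x ∈ Icc Y M, (if Squarefree x ∧ x.Coprime r ∧
        x.primeFactors.card = j then cc b a Q x else 0) := by
      apply Finset.sum_congr rfl
      intro x hx
      rw [mem_Icc] at hx
      rw [if_pos hx.1]
    rw [h4]
    have h5 : ∀ a b c d : ℝ, a = c → d = b → a + d - c = b := by
      intro a b c d h h'
      rw [h, h']
      ring
    refine h5 _ _ _ _ ?_ ?_
    · apply Finset.sum_congr rfl
      intro x _
      congr
    · apply Finset.sum_congr rfl
      intro x _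
      congr
  simp only [h1, Finset.mul_sum]
  rw [Finset.sum_comm]
  apply Finset.sum_congr rfl
  intro x _
  by_cases hYx : Y ≤ x
  · simp only [if_pos hYx]
    by_cases hsq : Squarefree x ∧ x.Coprime r
    · rw [if_pos hsq]
      have h4 : ∀ j, (if Squarefree x ∧ x.Coprime r ∧ x.primeFactors.card = j
          then cc b a Q x else 0) = if x.primeFactors.card = j then cc b a Q x
            else 0 := by
        intro j
        by_cases hj : x.primeFactors.card = j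
        · rw [if_pos ⟨hsq.1, hsq.2, hj⟩, if_pos hj]
        · rw [if_neg (fun h => hj h.2.2), if_neg hj]
      simp only [h4, mul_ite, mul_zero]
      rw [Finset.sum_ite_eq]
      by_cases hJ : x.primeFactors.card ≤ J0
      · rw [if_pos hJ, if_pos (by rw [mem_range]; omega)]
        rfl
      · rw [if_neg hJ, if_neg (by rw [mem_range]; omega)]
    · have h4 : ∀ j, (if Squarefree x ∧ x.Coprime r ∧ x.primeFactors.card = j
          then cc b a Q x else 0) = 0 := by
        intro j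
        rw [if_neg (fun h => hsq ⟨h.1, h.2.1⟩)]
      simp [h4, hsq]
  · simp [hYx]

section general2

open Classical

variable {ι : Type*} [Fintype ι] [DecidableEq ι]

/-- the inner sum -/
lemma S2_innerC {N₀ : ℕ} (hN₀ : 2 ≤ N₀) (P : ι → ι → ZMod 2) (hP : ∀ w, P w w = 0)
    (es cs : ι → ℕ) (i Q₀ : ℕ) (hcs : ∀ u, cs u ∣ Q₀)
    (hi : i ≠ 0) (hQ₀ : Odd Q₀) (X Y Z J0 : ℕ) (W M : ℝ) (hM : 0 < M) (hY : 2 ≤ Y) (hZ1 : 1 ≤ Z)
    (hZY : Z ≤ Y)
    (hW : (8 * (Q₀ * Q₀ * (Z : ℝ) ^ (Fintype.card ι))) ≤ W) (hB : CharC X Y J0 W M)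
    (V : Finset ι) (v : ι) (D : ι → ℕ) (hD : D ∈ TX ι X) (hDv : D v = 1) :
    |∑ x ∈ Icc 1 (X / ∏ u, D u), gC N₀ P es cs i Q₀ (update D v x) *
      (HH P Z Y V v (update D v x) * tr J0 x)| ≤ 4 * X / M * (1 / ((∏ u, D u : ℕ) : ℝ)) := by
  have hN₀1 : 1 ≤ N₀ := by omega
  rw [mem_TX] at hD
  obtain ⟨hD1, hD2⟩ := hD
  set r := ∏ u, D u with hr
  have hr1 : 1 ≤ r := one_le_prod hD1
  have hrR : (0 : ℝ) < r := by exact_mod_cast hr1
  have hnn : 0 ≤ 4 * X / M * (1 / (r : ℝ)) := by positivity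
  have hzero : (∀ x ∈ Icc 1 (X / r), gC N₀ P es cs i Q₀ (update D v x) *
      (HH P Z Y V v (update D v x) * tr J0 x) = 0) →
      |∑ x ∈ Icc 1 (X / r), gC N₀ P es cs i Q₀ (update D v x) *
      (HH P Z Y V v (update D v x) * tr J0 x)| ≤ 4 * X / M * (1 / (r : ℝ)) := by
    intro h
    rw [Finset.sum_eq_zero h, abs_zero]
    exact hnn
  -- degenerate cases
  by_cases hκ : HH P Z Y V v (update D v Y) = 0
  · apply hzero
    intro x _
    by_cases hx : Y ≤ x
    · rw [HH_upd P Z Y V v D hY hZY x hx, hκ]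
      ring
    · rw [HH_small P Z Y V v D x hx]
      ring
  by_cases hpw : pN N₀ i Q₀ r = 0
  · apply hzero
    intro x _
    have : gC N₀ P es cs i Q₀ (update D v x) = 0 := by
      unfold gC gN
      rw [prod_upd D v x hDv, ← hr]
      by_cases hxr : Nat.Coprime x r
      · rw [pN_mul hxr, hpw]
        ring
      · rw [pN_not_sq]
        · ring
        · intro h3
          exact hxr (Nat.coprime_of_squarefree_mul h3)
    rw [this]
    ring
  have hodd : Odd r := by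
    by_contra h
    exact hpw (pN_even hi h)
  have hsq : Squarefree r := by
    by_contra h
    exact hpw (pN_not_sq h)
  have hQ00 : Q₀ ≠ 0 := hQ₀.pos.ne'
  have hcop : Nat.Coprime r Q₀ := by
    by_contra h
    apply hpw
    unfold pN
    rw [J_eq_zero hQ00 h, mul_zero]
  have hcvo : Odd (cs v) := Odd.of_dvd_nat hQ₀ (hcs v)
  have hcv0 : cs v ≠ 0 := hcvo.pos.ne'
  obtain ⟨hlt, hex⟩ := HH_ne P Z Y V v D hZY hκ
  obtain ⟨c, hc, a, ha, hone⟩ := one_varC hN₀1 P hP es cs i Q₀ hi hQ00 v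
    hcv0 D hDv hodd
  rw [← hr] at hone
  set Q := Q₀ * cs v * lprod P v D with hQ
  set N := X / r with hN
  by_cases hYN : Y ≤ N
  swap
  · apply hzero
    intro x hx
    rw [mem_Icc] at hx
    rw [HH_small P Z Y V v D x (by omega)]
    ring
  have hQodd : Odd Q := by
    rw [hQ, Nat.odd_mul]
    refine ⟨hQ₀.mul hcvo, ?_⟩
    obtain ⟨k, hk⟩ := lprod_dvd P v D
    rw [← hr] at hk
    rw [hk, Nat.odd_mul] at hodd
    exact hodd.1
  have hQns : ¬ IsSquare Q := mod_nonsqN P v D hsq (Q₀ * cs v)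
    (mul_ne_zero hQ00 hcv0) (Nat.Coprime.mul_right hcop (Nat.Coprime.coprime_dvd_right (hcs v)
      hcop)) hex
  have hQW : (8 * Q : ℝ) ≤ W := by
    refine le_trans ?_ hW
    have h1 : (lprod P v D : ℝ) ≤ (Z : ℝ) ^ (Fintype.card ι) := by
      exact_mod_cast lprod_le P v D Z hZ1 hlt
    have h2 : (cs v : ℝ) ≤ Q₀ := by exact_mod_cast Nat.le_of_dvd hQ₀.pos (hcs v)
    rw [hQ]
    push_cast
    gcongr
  have hterm : ∑ x ∈ Icc 1 N, gC N₀ P es cs i Q₀ (update D v x) *
      (HH P Z Y V v (update D v x) * tr J0 x)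
      = c * HH P Z Y V v (update D v Y) * ∑ x ∈ Icc 1 N, (if x.primeFactors.card ≤ J0 then
        (if Y ≤ x then ((if Squarefree x ∧ Nat.Coprime x r then qN N₀ x else 0) *
          cc (es v) a Q x) else 0) else 0) := by
    rw [Finset.mul_sum]
    apply Finset.sum_congr rfl
    intro x _
    rw [hone x]
    unfold tr
    by_cases hJ : x.primeFactors.card ≤ J0
    · by_cases hYx : Y ≤ x
      · rw [if_pos hJ, if_pos hJ, if_pos hYx, HH_upd P Z Y V v D hY hZY x hYx]
        ring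
      · rw [if_pos hJ, if_pos hJ, if_neg hYx, HH_small P Z Y V v D x hYx]
        ring
    · rw [if_neg hJ, if_neg hJ]
      ring
  rw [hterm, split_sumC N₀ (es v) a Q r J0 N Y (by omega) hYN, abs_mul, abs_mul]
  have hNX : N ≤ X := Nat.div_le_self _ _
  have hNR : (N : ℝ) ≤ X / r := Nat.cast_div_le
  have h3 : |∑ j ∈ range (J0 + 1), ((1 : ℝ) / N₀) ^ j * (SJC (es v) a Q r j N - SJC (es v) a Q r j (Y - 1))|
      ≤ 4 * X / M * (1 / (r : ℝ)) := by
    refine (Finset.abs_sum_le_sum_abs _ _).trans ?_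
    have h4 : ∀ j ∈ range (J0 + 1), |((1 : ℝ) / N₀) ^ j * (SJC (es v) a Q r j N - SJC (es v) a Q r j (Y - 1))|
        ≤ (1 / N₀) ^ j * (2 * (X / r) / M) := by
      intro j hj
      rw [mem_range] at hj
      rw [abs_mul, abs_of_nonneg (by positivity : (0 : ℝ) ≤ (1 / N₀) ^ j)]
      apply mul_le_mul_of_nonneg_left _ (by positivity)
      have h5 := hB (es v) a Q r j N ha hQodd hQns hQW hr1 hD2 (by omega) (by omega) hNX
      have h6 := hB (es v) a Q r j (Y - 1) ha hQodd hQns hQW hr1 hD2 (by omega) (by omega) (by omega)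
      have h7 : ((Y - 1 : ℕ) : ℝ) / M ≤ (X / r) / M := by
        have : ((Y - 1 : ℕ) : ℝ) ≤ N := by exact_mod_cast (by omega : Y - 1 ≤ N)
        have h8 := this.trans hNR
        gcongr
      have h8 : (N : ℝ) / M ≤ (X / r) / M := by gcongr
      refine (abs_sub _ _).trans ?_
      have : 2 * ((X : ℝ) / r) / M = (X / r) / M + (X / r) / M := by ring
      rw [this]
      linarith
    refine (Finset.sum_le_sum h4).trans ?_
    rw [← Finset.sum_mul]
    have h5 := geom_leN hN₀ (J0 + 1)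
    calc (∑ j ∈ range (J0 + 1), ((1 : ℝ) / N₀) ^ j) * (2 * ((X : ℝ) / r) / M)
        ≤ 2 * (2 * ((X : ℝ) / r) / M) := by gcongr
      _ = 4 * X / M * (1 / (r : ℝ)) := by ring
  have h4 : |c| * |HH P Z Y V v (update D v Y)| ≤ 1 :=
    mul_le_one₀ hc (abs_nonneg _) (HH_abs P Z Y V v _)
  calc |c| * |HH P Z Y V v (update D v Y)| *
        |∑ j ∈ range (J0 + 1), ((1 : ℝ) / N₀) ^ j * (SJC (es v) a Q r j N - SJC (es v) a Q r j (Y - 1))|
      ≤ 1 * |∑ j ∈ range (J0 + 1), ((1 : ℝ) / N₀) ^ j * (SJC (es v) a Q r j N - SJC (es v) a Q r j (Y - 1))| := by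
        gcongr
    _ ≤ _ := by rw [one_mul]; exact h3

/-- one coordinate -/
lemma S2_oneC {N₀ : ℕ} (hN₀ : 2 ≤ N₀) (P : ι → ι → ZMod 2) (hP : ∀ w, P w w = 0)
    (es cs : ι → ℕ) (i Q₀ : ℕ) (hcs : ∀ u, cs u ∣ Q₀)
    (hi : i ≠ 0) (hQ₀ : Odd Q₀) (X Y Z J0 : ℕ) (W M : ℝ) (hM : 0 < M) (hY : 2 ≤ Y) (hZ1 : 1 ≤ Z)
    (hZY : Z ≤ Y)
    (hW : (8 * (Q₀ * Q₀ * (Z : ℝ) ^ (Fintype.card ι))) ≤ W) (hB : CharC X Y J0 W M)
    (V : Finset ι) (v : ι) :
    |∑ D ∈ TX ι X, gC N₀ P es cs i Q₀ D * HH P Z Y V v D|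
      ≤ 4 * X / M * (1 + Real.log X) ^ (Fintype.card ι) + tailSN ι N₀ X J0 := by
  have hsplit : ∑ D ∈ TX ι X, gC N₀ P es cs i Q₀ D * HH P Z Y V v D
      = ∑ D ∈ TX ι X, gC N₀ P es cs i Q₀ D * (HH P Z Y V v D * tr J0 (D v))
        + ∑ D ∈ TX ι X, gC N₀ P es cs i Q₀ D * (HH P Z Y V v D * (1 - tr J0 (D v))) := by
    rw [← Finset.sum_add_distrib]
    apply Finset.sum_congr rfl
    intro D _
    ring
  rw [hsplit]
  refine (abs_add_le _ _).trans (add_le_add ?_ ?_)
  · rw [sum_fibT X v]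
    refine (Finset.abs_sum_le_sum_abs _ _).trans ?_
    have h1 : ∀ D ∈ (TX ι X).filter (fun D => D v = 1),
        |∑ x ∈ Icc 1 (X / ∏ u, D u), gC N₀ P es cs i Q₀ (update D v x) *
          (HH P Z Y V v (update D v x) * tr J0 (update D v x v))|
        ≤ 4 * X / M * (1 / ((∏ u, D u : ℕ) : ℝ)) := by
      intro D hD
      rw [Finset.mem_filter] at hD
      have := S2_innerC hN₀ P hP es cs i Q₀ hcs hi hQ₀ X Y Z J0 W M hM hY hZ1 hZY hW hB V v D hD.1 hD.2
      simpa only [update_self] using this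
    refine (Finset.sum_le_sum h1).trans ?_
    rw [← Finset.mul_sum]
    apply mul_le_mul_of_nonneg_left _ (by positivity)
    refine le_trans ?_ (sum_recipT (ι := ι) X)
    apply Finset.sum_le_sum_of_subset_of_nonneg
    · exact Finset.filter_subset _ _
    · intro D _ _
      positivity
  · refine (Finset.abs_sum_le_sum_abs _ _).trans ?_
    unfold tailSN
    rw [Finset.sum_filter]
    apply Finset.sum_le_sum
    intro D hD
    rw [mem_TX] at hD
    by_cases hJ : J0 < (∏ u, D u).primeFactors.card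
    · rw [if_pos hJ, abs_mul]
      have h1 := gC_abs N₀ P es cs i Q₀ D
      have h2 : |HH P Z Y V v D * (1 - tr J0 (D v))| ≤ 1 := by
        rw [abs_mul]
        refine mul_le_one₀ (HH_abs _ _ _ _ _ _) (abs_nonneg _) ?_
        unfold tr
        split_ifs <;> simp
      calc |gC N₀ P es cs i Q₀ D| * |HH P Z Y V v D * (1 - tr J0 (D v))|
          ≤ sqh (qN N₀) D * 1 :=
            mul_le_mul h1 h2 (abs_nonneg _) (sqh_nonneg _ (qN_nonneg N₀) _)
        _ = sqh (qN N₀) D := mul_one _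
    · rw [if_neg hJ]
      have h1 : tr J0 (D v) = 1 := by
        unfold tr
        rw [if_pos]
        have h2 : (D v).primeFactors ⊆ (∏ u, D u).primeFactors :=
          Nat.primeFactors_mono (Finset.dvd_prod_of_mem _ (Finset.mem_univ v))
            (by have := one_le_prod hD.1; omega)
        have := Finset.card_le_card h2
        omega
      rw [h1]
      simp

/-- all coordinates -/
theorem S2C {N₀ : ℕ} (hN₀ : 2 ≤ N₀) (P : ι → ι → ZMod 2) (hP : ∀ w, P w w = 0)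
    (es cs : ι → ℕ) (i Q₀ : ℕ) (hcs : ∀ u, cs u ∣ Q₀)
    (hi : i ≠ 0) (hQ₀ : Odd Q₀) (X Y Z J0 : ℕ) (W M : ℝ) (hM : 0 < M) (hY : 2 ≤ Y) (hZ1 : 1 ≤ Z)
    (hZY : Z ≤ Y)
    (hW : (8 * (Q₀ * Q₀ * (Z : ℝ) ^ (Fintype.card ι))) ≤ W) (hB : CharC X Y J0 W M)
    (V : Finset ι) :
    |∑ D ∈ TX ι X, gC N₀ P es cs i Q₀ D * NQ Z (allP P) D
        - ∑ D ∈ TX ι X, gC N₀ P es cs i Q₀ D * (NQ Z (allP P) D * MV P Y V D)|
      ≤ V.card * (4 * X / M * (1 + Real.log X) ^ (Fintype.card ι) + tailSN ι N₀ X J0) := by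
  induction V using Finset.induction_on with
  | empty => simp [MV]
  | insert v V hv ih =>
    have h3 := S2_oneC hN₀ P hP es cs i Q₀ hcs hi hQ₀ X Y Z J0 W M hM hY hZ1 hZY hW hB V v
    have h4 : ∑ D ∈ TX ι X, gC N₀ P es cs i Q₀ D * (NQ Z (allP P) D * MV P Y (insert v V) D)
        = ∑ D ∈ TX ι X, gC N₀ P es cs i Q₀ D * (NQ Z (allP P) D * MV P Y V D)
          - ∑ D ∈ TX ι X, gC N₀ P es cs i Q₀ D * HH P Z Y V v D := by
      rw [← Finset.sum_sub_distrib]
      apply Finset.sum_congr rfl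
      intro D _
      have : MV P Y (insert v V) D = (1 - Cv P Y v D) * MV P Y V D := by
        unfold MV
        rw [Finset.prod_insert hv]
      rw [this]
      unfold HH
      ring
    rw [h4, Finset.card_insert_of_notMem hv]
    push_cast
    have h5 : ∑ D ∈ TX ι X, gC N₀ P es cs i Q₀ D * NQ Z (allP P) D -
        (∑ D ∈ TX ι X, gC N₀ P es cs i Q₀ D * (NQ Z (allP P) D * MV P Y V D)
          - ∑ D ∈ TX ι X, gC N₀ P es cs i Q₀ D * HH P Z Y V v D)
        = (∑ D ∈ TX ι X, gC N₀ P es cs i Q₀ D * NQ Z (allP P) D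
          - ∑ D ∈ TX ι X, gC N₀ P es cs i Q₀ D * (NQ Z (allP P) D * MV P Y V D))
          + ∑ D ∈ TX ι X, gC N₀ P es cs i Q₀ D * HH P Z Y V v D := by ring
    rw [h5]
    refine (abs_add_le _ _).trans ?_
    linarith

end general2

end Vale.Agent.P017.H994
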