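import Vale.Agent.P017.H994.T3
import Vale.Agent.P017.H506.E6

/-!
The engine with a real character of modulus dividing `120` on every coordinate, third part: the
three error terms.
-/

namespace Vale.Agent.P017.H994

open Finset Function Vale.Agent.P014.FM Vale.Agent.P017.H506
open Vale.Agent.P014.H687.FM (fm2b sqf mem_sqf SW eventually_log_rpow_le sw)

variable {ι : Type*} [Fintype ι] [DecidableEq ι]

/-- the third step -/
lemma S3C {P : ι → ι → ZMod 2} {N : ℕ} (hN : 1 ≤ N)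
    (hmax : ∀ U : Finset ι, Unl P U → U.card ≤ N) (es cs : ι → ℕ)
    (i Q X Y Z : ℕ) (hZ : 2 ≤ Z) (hZY : Z ≤ Y) :
    |∑ D ∈ TX ι X, gC N P es cs i Q D * (NQ Z (allP P) D * MV P Y univ D)
        - ∑ D ∈ TX ι X, gC N P es cs i Q D * mUN N P D|
      ≤ (1 + (UsN P N).card) *
        ∑ D ∈ (TX ι X).filter (fun D => (Lg Y D).card ≤ N - 1), sqh (qN N) D := by
  rw [← Finset.sum_sub_distrib]
  refine (Finset.abs_sum_le_sum_abs _ _).trans ?_
  rw [Finset.sum_filter, Finset.mul_sum]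
  apply Finset.sum_le_sum
  intro D hD
  rw [mem_TX] at hD
  by_cases h : (Lg Y D).card ≤ N - 1
  · rw [if_pos h, ← mul_sub, abs_mul]
    have h1 := gC_abs N P es cs i Q D
    have h2 : |NQ Z (allP P) D * MV P Y univ D - mUN N P D| ≤ 1 + (UsN P N).card := by
      have h3 : |NQ Z (allP P) D * MV P Y univ D| ≤ 1 := by
        rcases NQ_cases Z (allP P) D with h | h <;> rcases MV_cases P Y univ D with h' | h' <;>
          rw [h, h'] <;> simp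
      have h4 : |mUN N P D| ≤ (UsN P N).card := by
        rw [abs_of_nonneg (mUN_nonneg N P D)]
        exact mUN_le N P D
      exact (abs_sub _ _).trans (add_le_add h3 h4)
    calc |gC N P es cs i Q D| * |NQ Z (allP P) D * MV P Y univ D - mUN N P D|
        ≤ sqh (qN N) D * (1 + (UsN P N).card) :=
          mul_le_mul h1 h2 (abs_nonneg _) (sqh_nonneg _ (qN_nonneg N) _)
      _ = _ := mul_comm _ _
  · rw [if_neg h, m_eqN hmax Z Y hZ hZY D hD.1 (by omega)]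
    simp

lemma T1C (N Q Q' : ℕ) (hN : 1 ≤ N) (P : ι → ι → ZMod 2) (es cs : ι → ℕ) : ∃ C : ℝ, 0 < C ∧
    ∀ (X : ℕ) (L K : ℝ) (Z Y J0 : ℕ), ParN (Fintype.card ι) N Q' X L K Z Y J0 →
    ∀ i : ℕ, i ≠ 0 →
    |∑ D ∈ TX ι X, gC N P es cs i Q D - ∑ D ∈ TX ι X, gC N P es cs i Q D * NQ Z (allP P) D|
      ≤ C * X * L⁻¹ := by
  obtain ⟨C1, hC1, hS1⟩ := S1C (ι := ι)
  obtain ⟨p, hP⟩ : ∃ p : ℝ, ((allP P).card : ℝ) = p := ⟨_, rfl⟩
  have hP0 : 0 ≤ p := by rw [← hP]; exact Nat.cast_nonneg _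
  obtain ⟨c, hc⟩ : ∃ c, Fintype.card ι = c := ⟨_, rfl⟩
  rw [hc]
  refine ⟨p * (C1 * 2 ^ (c + 1)) + 1, by positivity, ?_⟩
  intro X L K Z Y J0 hp i hi
  have hbig := hp.big
  have hL0 : 0 < L := by linarith
  have hX9 := hp.hX
  have hT1 := hS1 N P es cs i Q X Z (allP P) (by
    intro q hq
    unfold allP at hq
    exact (Finset.mem_filter.1 hq).2) hN hi (by omega) (by have := hp.Z2; omega)
  rw [hc, hp.hL, hP] at hT1
  have hZ32 : (Z : ℝ) ^ (-(1 : ℝ) / 32) ≤ (L ^ (c + 2 : ℕ))⁻¹ := by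
    calc (Z : ℝ) ^ (-(1 : ℝ) / 32) ≤ ((L ^ (c + 2)) ^ 32) ^ (-(1 : ℝ) / 32) :=
          Real.rpow_le_rpow_of_nonpos (by positivity) hp.Z1 (by norm_num)
      _ = (L ^ (c + 2 : ℕ))⁻¹ := by
          rw [← Real.rpow_natCast (L ^ (c + 2)) 32, ← Real.rpow_mul (by positivity)]
          norm_num
          rw [Real.rpow_neg_one]
  have hL1L : (1 + L) ≤ 2 * L := by linarith
  refine hT1.trans ?_
  calc p * (C1 * X * (1 + L) ^ (c + 1) * (Z : ℝ) ^ (-(1 : ℝ) / 32))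
      ≤ p * (C1 * X * (2 * L) ^ (c + 1) * (L ^ (c + 2 : ℕ))⁻¹) := by gcongr
    _ = p * (C1 * 2 ^ (c + 1)) * X * L⁻¹ := by
        rw [mul_pow, pow_succ L (c + 1)]
        field_simp
    _ ≤ (p * (C1 * 2 ^ (c + 1)) + 1) * X * L⁻¹ := by
        gcongr
        linarith

lemma T2C (N Q : ℕ) (hN : 2 ≤ N) (hι : Fintype.card ι = N ^ 2) (P : ι → ι → ZMod 2)
    (hP : ∀ w, P w w = 0) (es cs : ι → ℕ) (hcs : ∀ u, cs u ∣ Q) (hQ : Odd Q) : ∃ C : ℝ, 0 < C ∧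
    ∀ (X : ℕ) (L K : ℝ) (Z Y J0 : ℕ), ParN (Fintype.card ι) N (2 * Q * Q) X L K Z Y J0 →
    CharC X Y J0 (L ^ K) (L ^ K) → ∀ i : ℕ, i ≠ 0 →
    |∑ D ∈ TX ι X, gC N P es cs i Q D * NQ Z (allP P) D
        - ∑ D ∈ TX ι X, gC N P es cs i Q D * (NQ Z (allP P) D * MV P Y univ D)|
      ≤ C * X * L⁻¹ := by
  have hne : Nonempty ι := by
    rw [← Fintype.card_pos_iff, hι]
    positivity
  obtain ⟨C2, hC2, htail⟩ := tail_leN (ι := ι) N (by omega) hι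
  obtain ⟨c, hc⟩ : ∃ c, Fintype.card ι = c := ⟨_, rfl⟩
  rw [hc]
  refine ⟨(c + 1) * (4 * 2 ^ c + 2 * C2), by positivity, ?_⟩
  intro X L K Z Y J0 hp hcb i hi
  have hbig := hp.big
  have hL0 : 0 < L := by linarith
  have hL1 : 1 ≤ L := by linarith
  have hX9 := hp.hX
  have hW : (8 * (Q * Q * (Z : ℝ) ^ (Fintype.card ι))) ≤ L ^ K := by
    refine le_trans (le_of_eq ?_) hp.W
    rw [hc]
    push_cast
    ring
  have hT2 := S2C hN P hP es cs i Q hcs hi hQ X Y Z J0 (L ^ K) (L ^ K)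
    (by positivity) (hp.Z2.trans hp.ZY) (by have := hp.Z2; omega) hp.ZY hW hcb univ
  rw [Finset.card_univ, hc, hp.hL] at hT2
  have htl : tailSN ι N X J0 ≤ 2 * C2 * X * L⁻¹ := by
    have h1 := htail X J0 (by omega)
    rw [hp.hL] at h1
    unfold tailSN
    refine h1.trans ?_
    have h2 : ((1 : ℝ) / 2) ^ J0 ≤ 2 * (L ^ (2 * N + 2 : ℕ))⁻¹ := by
      have hlt := hp.J2
      have hl2 : (1 : ℝ) / 2 ≤ Real.log 2 := by have := Real.log_two_gt_d9; linarith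
      have hlogL : 0 ≤ Real.log L := Real.log_nonneg hL1
      have h3 : ((1 : ℝ) / 2) ^ J0 = Real.exp (-(J0 * Real.log 2)) := by
        rw [Real.exp_neg, mul_comm, Real.exp_mul, Real.exp_log (by norm_num), Real.rpow_natCast,
          one_div, inv_pow]
      have h4 : 2 * (L ^ (2 * N + 2 : ℕ))⁻¹
          = Real.exp (Real.log 2 - Real.log L * ((2 * N + 2 : ℕ) : ℝ)) := by
        rw [Real.exp_sub, Real.exp_log (by norm_num), Real.exp_mul,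
          Real.exp_log hL0, Real.rpow_natCast]
        rfl
      rw [h3, h4]
      apply Real.exp_le_exp.2
      push_cast
      have hN0 : (0 : ℝ) ≤ N := Nat.cast_nonneg _
      have h5 : (4 * (N : ℝ) + 4) * Real.log L * (1 / 2) ≤ (J0 + 1) * Real.log 2 := by
        apply mul_le_mul hlt hl2 (by norm_num) (by positivity)
      linarith
    have h7 : L ^ (2 * (N : ℝ) - 1) ≤ L ^ (2 * N : ℕ) := by
      rw [← Real.rpow_natCast]
      apply Real.rpow_le_rpow_of_exponent_le hL1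
      push_cast
      linarith
    calc C2 * X * L ^ (2 * (N : ℝ) - 1) * (1 / 2) ^ J0
        ≤ C2 * X * L ^ (2 * N : ℕ) * (2 * (L ^ (2 * N + 2 : ℕ))⁻¹) := by
          gcongr
      _ = 2 * C2 * X * (L ^ 2)⁻¹ := by
          rw [pow_add]
          field_simp
      _ ≤ 2 * C2 * X * L⁻¹ := by
          gcongr
          exact le_self_pow₀ hL1 (by norm_num)
  refine hT2.trans ?_
  have h1 : 4 * X / L ^ K * (1 + L) ^ c ≤ 4 * 2 ^ c * X * L⁻¹ := by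
    have hM := hp.M
    calc 4 * X / L ^ K * (1 + L) ^ c ≤ 4 * X / L ^ (c + 1 : ℕ) * (2 * L) ^ c := by
          have : 1 + L ≤ 2 * L := by linarith
          gcongr
      _ = 4 * 2 ^ c * X * L⁻¹ := by
          rw [mul_pow, pow_succ]
          field_simp
  calc (c : ℝ) * (4 * X / L ^ K * (1 + L) ^ c + tailSN ι N X J0)
      ≤ (c + 1) * (4 * 2 ^ c * X * L⁻¹ + 2 * C2 * X * L⁻¹) := by
        have htn : 0 ≤ tailSN ι N X J0 :=
          Finset.sum_nonneg (fun _ _ => sqh_nonneg _ (qN_nonneg N) _)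
        have h0 : 0 ≤ 4 * X / L ^ K * (1 + L) ^ c := by positivity
        exact mul_le_mul (by linarith) (add_le_add h1 htl) (add_nonneg h0 htn) (by positivity)
    _ = (c + 1) * (4 * 2 ^ c + 2 * C2) * X * L⁻¹ := by ring

lemma T3C (N Q Q' : ℕ) (hN : 2 ≤ N) (hι : Fintype.card ι = N ^ 2) (P : ι → ι → ZMod 2)
    (es cs : ι → ℕ) (hmax : ∀ U : Finset ι, Unl P U → U.card ≤ N) : ∃ C : ℝ, 0 < C ∧
    ∀ (X : ℕ) (L K : ℝ) (Z Y J0 : ℕ), ParN (Fintype.card ι) N Q' X L K Z Y J0 →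
    ∀ i : ℕ,
    |∑ D ∈ TX ι X, gC N P es cs i Q D * (NQ Z (allP P) D * MV P Y univ D)
        - ∑ D ∈ TX ι X, gC N P es cs i Q D * mUN N P D|
      ≤ C * X * L ^ (-(1 / (2 * (N : ℝ)))) := by
  have hN1 : 1 ≤ N := by omega
  have hne : Nonempty ι := by
    rw [← Fintype.card_pos_iff, hι]
    positivity
  obtain ⟨C3, hC3, hfew⟩ := few_leN (ι := ι) N hN1
  obtain ⟨U, hU⟩ : ∃ U : ℝ, ((UsN P N).card : ℝ) = U := ⟨_, rfl⟩
  have hU0 : 0 ≤ U := by rw [← hU]; exact Nat.cast_nonneg _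
  obtain ⟨c, hc⟩ : ∃ c, Fintype.card ι = c := ⟨_, rfl⟩
  rw [hc]
  refine ⟨(1 + U) * (C3 * 4 ^ c), by positivity, ?_⟩
  intro X L K Z Y J0 hp i
  have hbig := hp.big
  have hL0 : 0 < L := by linarith
  have hL1 : 1 ≤ L := by linarith
  have hX9 := hp.hX
  have hT3 := S3C hN1 hmax es cs i Q X Y Z hp.Z2 hp.ZY
  have hY2 : 2 ≤ Y := hp.Z2.trans hp.ZY
  have hfw := hfew X Y hX9 (by omega) (by rw [hc]; exact hp.YX)
  rw [hc, hp.hL] at hfw
  rw [hU] at hT3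
  refine hT3.trans ?_
  have hη := eta_pos (c := c) hN1
  have he1 : 1 ≤ L ^ eta c N := Real.one_le_rpow hL1 hη.le
  have hY1' : (1 : ℝ) ≤ Y := by exact_mod_cast (by omega : 1 ≤ Y)
  have hNR : (0 : ℝ) < N := by exact_mod_cast hN1
  have h1 : (1 + Real.log Y) ^ c ≤ 4 ^ c * L ^ (1 / (2 * (N : ℝ))) := by
    have h2 : 0 ≤ Real.log Y := Real.log_nonneg hY1'
    have h3 := hp.Yup
    calc (1 + Real.log Y) ^ c ≤ (4 * L ^ eta c N) ^ c := by
          gcongr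
          linarith
      _ = 4 ^ c * L ^ (c * eta c N) := by
          rw [mul_pow, ← Real.rpow_natCast (L ^ eta c N), ← Real.rpow_mul hL0.le]
          congr 2
          ring
      _ ≤ 4 ^ c * L ^ (1 / (2 * (N : ℝ))) := by
          apply mul_le_mul_of_nonneg_left _ (by positivity)
          exact Real.rpow_le_rpow_of_exponent_le hL1 (eta_mul hN1)
  have h2 : L ^ (-(1 : ℝ) / N) * L ^ (1 / (2 * (N : ℝ))) = L ^ (-(1 / (2 * (N : ℝ)))) := by
    rw [← Real.rpow_add hL0]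
    congr 1
    field_simp
    ring
  calc (1 + U) * ∑ D ∈ (TX ι X).filter (fun D => (Lg Y D).card ≤ N - 1), sqh (qN N) D
      ≤ (1 + U) * (C3 * X * L ^ (-(1 : ℝ) / N) * (1 + Real.log Y) ^ c) := by
        gcongr
    _ ≤ (1 + U) * (C3 * X * L ^ (-(1 : ℝ) / N) * (4 ^ c * L ^ (1 / (2 * (N : ℝ))))) := by gcongr
    _ = (1 + U) * (C3 * 4 ^ c) * X * (L ^ (-(1 : ℝ) / N) * L ^ (1 / (2 * (N : ℝ)))) := by ring
    _ = _ := by rw [h2]

/-- the estimate for one choice of the exponents -/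
theorem one_iC (N Q : ℕ) (hN : 2 ≤ N) (hι : Fintype.card ι = N ^ 2) (P : ι → ι → ZMod 2)
    (hP : ∀ w, P w w = 0) (es cs : ι → ℕ) (hcs : ∀ u, cs u ∣ Q) (hQ : Odd Q) (hmax : ∀ U : Finset ι, Unl P U → U.card ≤ N) :
    ∃ C X₀ : ℝ, 0 < C ∧ ∀ X : ℕ, X₀ ≤ X → ∀ i : ℕ, i ≠ 0 →
    |∑ D ∈ TX ι X, gC N P es cs i Q D - ∑ D ∈ TX ι X, gC N P es cs i Q D * mUN N P D|
      ≤ C * X * (Real.log X) ^ (-(1 / (2 * (N : ℝ)))) := by
  have hN1 : 1 ≤ N := by omega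
  obtain ⟨C1, hC1, h1⟩ := T1C N Q (2 * Q * Q) hN1 P es cs
  obtain ⟨C2, hC2, h2⟩ := T2C N Q hN hι P hP es cs hcs hQ
  obtain ⟨C3, hC3, h3⟩ := T3C N Q (2 * Q * Q) hN hι P es cs hmax
  obtain ⟨c, hc⟩ : ∃ c, Fintype.card ι = c := ⟨_, rfl⟩
  rw [hc] at h1 h2 h3
  have hK1 : (1 : ℝ) ≤ (KN c N : ℕ) := by
    have : 1 ≤ KN c N := by unfold KN; omega
    exact_mod_cast this
  obtain ⟨X₁, hchar⟩ := charC sw (KN c N : ℕ) (eta c N) hK1 (eta_pos hN1)
  obtain ⟨X₂, hpar⟩ := par_exN c N (2 * Q * Q) hN1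
  refine ⟨C1 + C2 + C3, max X₁ X₂, by positivity, ?_⟩
  intro X hX i hi
  obtain ⟨L, Z, Y, J0, hp⟩ := hpar X ((le_max_right _ _).trans hX)
  have hX9 := hp.hX
  have hbig := hp.big
  have hL0 : 0 < L := by linarith
  have hcb := hchar X Y J0 ((le_max_left _ _).trans hX) (by omega)
    (by rw [hp.hL]; exact hp.Ylow) (by rw [hp.hL]; exact hp.J1)
  rw [hp.hL] at hcb
  have a1 := abs_le.1 (h1 X L _ Z Y J0 hp i hi)
  have a2 := abs_le.1 (h2 X L _ Z Y J0 hp hcb i hi)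
  have a3 := abs_le.1 (h3 X L _ Z Y J0 hp i)
  rw [hp.hL, abs_le]
  obtain ⟨b, hb⟩ : ∃ b, X * L ^ (-(1 / (2 * (N : ℝ)))) = b := ⟨_, rfl⟩
  obtain ⟨b', hb'⟩ : ∃ b, X * L⁻¹ = b := ⟨_, rfl⟩
  have hbb : b' ≤ b := by
    rw [← hb, ← hb']
    exact mul_le_mul_of_nonneg_left (inv_leN hN1 hbig) (Nat.cast_nonneg _)
  have hb0 : 0 ≤ b' := by rw [← hb']; positivity
  have e1 : C1 * X * L⁻¹ = C1 * b' := by rw [← hb']; ring
  have e2 : C2 * X * L⁻¹ = C2 * b' := by rw [← hb']; ring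
  have e3 : C3 * X * L ^ (-(1 / (2 * (N : ℝ)))) = C3 * b := by rw [← hb]; ring
  have e4 : (C1 + C2 + C3) * X * L ^ (-(1 / (2 * (N : ℝ)))) = (C1 + C2 + C3) * b := by
    rw [← hb]; ring
  have e5 : C1 * b' ≤ C1 * b := mul_le_mul_of_nonneg_left hbb hC1.le
  have e6 : C2 * b' ≤ C2 * b := mul_le_mul_of_nonneg_left hbb hC2.le
  rw [e1] at a1
  rw [e2] at a2
  rw [e3] at a3
  rw [e4]
  constructor
  · linarith [a1.1, a2.1, a3.1]
  · linarith [a1.2, a2.2, a3.2]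

end Vale.Agent.P017.H994
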