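import Vale.Agent.P017.H994.Main

namespace Vale.Agent.P017.H994

open NumberField Vale.Agent.P017.H185

variable {K : Type*} [Field K] [NumberField K] {d : ℕ} (q : QF K d)

include q in
theorem theta_ne_zero : q.θ ≠ 0 := by
  intro h
  have h1 := q.hθ
  rw [h] at h1
  have h2 : (d : K) = 0 := by linear_combination h1
  have h3 : d = 0 := by exact_mod_cast h2
  exact q.d_pos.ne' h3

/-- the norm of the extension -/
theorem norm_eq_nm [Algebra.IsQuadraticExtension ℚ K] (w : K) : Algebra.norm ℚ w = q.nm w := by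
  classical
  have h := Algebra.norm_eq_prod_automorphisms ℚ w
  have hne : (1 : Gal(K/ℚ)) ≠ q.σ := by
    intro h1
    have h2 : q.σ q.θ = q.θ := by rw [← h1]; rfl
    rw [q.hσ] at h2
    have h3 : (2 : K) * q.θ = 0 := by linear_combination -h2
    exact mul_ne_zero two_ne_zero (theta_ne_zero q) h3
  have hcard : (Finset.univ : Finset (Gal(K/ℚ))).card = 2 := by
    rw [Finset.card_univ, ← Nat.card_eq_fintype_card, IsGalois.card_aut_eq_finrank,
      Algebra.IsQuadraticExtension.finrank_eq_two]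
  have huniv : (Finset.univ : Finset (Gal(K/ℚ))) = {1, q.σ} := by
    symm
    apply Finset.eq_of_subset_of_card_le (Finset.subset_univ _)
    rw [hcard, Finset.card_pair hne]
  rw [huniv, Finset.prod_pair hne] at h
  have h1 : (1 : Gal(K/ℚ)) w = w := rfl
  rw [h1, q.mul_σ] at h
  have h2 : ((Algebra.norm ℚ w : ℚ) : K) = ((q.nm w : ℚ) : K) := by
    rw [← h]; simp
  exact_mod_cast h2

include q in
/-- the squarefree number `d` is determined by `K` -/
theorem d_unique {b : ℕ} (hb : Squarefree b) {θ : K} (hθ : θ ^ 2 = -(b : K)) : b = d := by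
  obtain ⟨u, v, huv⟩ := q.hspan θ
  have h2 : ((u ^ 2 - d * v ^ 2 + b : ℚ) : K) + ((2 * u * v : ℚ) : K) * q.θ = 0 := by
    have := hθ
    rw [huv] at this
    push_cast
    linear_combination this - (v : K) ^ 2 * q.hθ
  obtain ⟨h3, h4⟩ := q.uniq h2
  have hdQ : (0 : ℚ) < b := by exact_mod_cast Nat.pos_of_ne_zero hb.ne_zero
  have hv : v ≠ 0 := by
    rintro rfl
    nlinarith [sq_nonneg u]
  have hu : u = 0 := by
    rcases mul_eq_zero.mp h4 with h | h
    · linarith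
    · exact absurd h hv
  rw [hu] at h3
  have h5 : (b : ℚ) = d * v ^ 2 := by linarith
  have h6 : b * v.den ^ 2 = d * v.num.natAbs ^ 2 := by
    have h0 : (v.den : ℚ) ≠ 0 := by exact_mod_cast v.den_ne_zero
    have h7 : (b : ℚ) * v.den ^ 2 = d * v.num ^ 2 := by
      rw [h5, mul_assoc, ← mul_pow, Rat.mul_den_eq_num]
    have h8 : (b : ℤ) * v.den ^ 2 = d * v.num ^ 2 := by exact_mod_cast h7
    have h9 : ((b * v.den ^ 2 : ℕ) : ℤ) = ((d * v.num.natAbs ^ 2 : ℕ) : ℤ) := by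
      push_cast; rw [h8, sq_abs]
    exact_mod_cast h9
  have h7 : Nat.Coprime (v.den ^ 2) (v.num.natAbs ^ 2) :=
    Nat.Coprime.pow _ _ (Nat.Coprime.symm v.reduced)
  have h8 : v.den ^ 2 ∣ d := h7.dvd_of_dvd_mul_right ⟨b, by rw [← h6]; ring⟩
  have h9 : v.num.natAbs ^ 2 ∣ b := (Nat.Coprime.symm h7).dvd_of_dvd_mul_right ⟨d, by rw [h6]; ring⟩
  have h10 : v.den = 1 := Nat.isUnit_iff.mp (q.hd _ (by rwa [← sq]))
  have h11 : v.num.natAbs = 1 := Nat.isUnit_iff.mp (hb _ (by rwa [← sq]))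
  rw [h10, h11] at h6
  linarith

/-- coordinates of an integer -/
theorem coords_O (z : 𝓞 K) : ∃ a b n : ℤ, 2 * z = (a : 𝓞 K) + b * q.t ∧ a ^ 2 + d * b ^ 2 = 4 * n ∧
    z * q.s z = (n : 𝓞 K) := by
  obtain ⟨a, b, hab, n, hn⟩ := q.int_coords (QF.isInt z)
  refine ⟨a, b, n, ?_, hn, ?_⟩
  · apply QF.ext'
    rw [map_mul, map_add, map_mul, map_ofNat, map_intCast, map_intCast, q.coe_t]
    exact hab
  · have h1 : algebraMap (𝓞 K) K z = ((a / 2 : ℚ) : K) + ((b / 2 : ℚ) : K) * q.θ := by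
      push_cast; linear_combination (1 / 2 : K) * hab
    have e : (q.N z : ℚ) = n := by
      rw [q.N_eq, h1, q.nm_coords]
      have : ((a ^ 2 + d * b ^ 2 : ℤ) : ℚ) = ((4 * n : ℤ) : ℚ) := by rw [hn]
      push_cast at this
      linear_combination (1 / 4 : ℚ) * this
    have e2 : (q.N z : ℤ) = n := by exact_mod_cast e
    rw [q.mul_s, ← e2]; simp

include q in
/-- `3` inert -/
theorem inert_three (h3 : (Ideal.span {(3 : 𝓞 K)}).IsPrime) : d % 3 = 1 := by
  have hmem : ∀ x y : 𝓞 K, (3 : 𝓞 K) ∣ x * y → (3 : 𝓞 K) ∣ x ∨ (3 : 𝓞 K) ∣ y := by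
    intro x y h
    have := h3.mem_or_mem (Ideal.mem_span_singleton.mpr h)
    rwa [Ideal.mem_span_singleton, Ideal.mem_span_singleton] at this
  have ht := q.t_sq
  by_contra hcon
  have hcases : d % 3 = 0 ∨ d % 3 = 2 := by omega
  rcases hcases with h | h
  · obtain ⟨m, hm⟩ : ∃ m, d = 3 * m := ⟨d / 3, by omega⟩
    have h1 : (3 : 𝓞 K) ∣ q.t * q.t := ⟨-m, by
      rw [← sq, ht, hm]; push_cast; ring⟩
    have h2 : (3 : 𝓞 K) ∣ q.t := by
      rcases hmem _ _ h1 with h | h <;> exact h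
    obtain ⟨z, hz⟩ := h2
    have h4 : ((9 * q.N z : ℕ) : 𝓞 K) = (d : 𝓞 K) := by
      have e1 : q.t * q.s q.t = d := by rw [q.s_t]; linear_combination -ht
      have e2 : q.s q.t = 3 * q.s z := by rw [hz, map_mul, map_ofNat]
      rw [e2, hz] at e1
      have e3 := q.mul_s z
      push_cast
      rw [← e3, ← e1]; ring
    have h5 : 9 * q.N z = d := by exact_mod_cast h4
    have h6 := q.hd 3 ⟨q.N z, by linarith⟩
    exact absurd (Nat.isUnit_iff.mp h6) (by norm_num)
  · obtain ⟨m, hm⟩ : ∃ m, d = 3 * m + 2 := ⟨d / 3, by omega⟩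
    have h1 : (3 : 𝓞 K) ∣ (q.t - 1) * (q.t + 1) := ⟨-(m + 1), by
      have : (d : 𝓞 K) = 3 * m + 2 := by rw [hm]; push_cast; rfl
      linear_combination ht - this⟩
    have key : ∀ ε : 𝓞 K, (3 : 𝓞 K) ∣ q.t + ε → q.s ε = ε → (3 : 𝓞 K) ∣ 2 * ε := by
      rintro ε ⟨z, hz⟩ hε
      have h2 := congrArg q.s hz
      rw [map_add, q.s_t, hε, map_mul, map_ofNat] at h2
      exact ⟨z + q.s z, by linear_combination hz + h2⟩
    have h9 : ∀ n : ℕ, (3 : 𝓞 K) ∣ (n : 𝓞 K) → 3 ∣ n := by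
      intro n hn
      exact QF.natCast_dvd (K := K) (by push_cast; exact hn)
    rcases hmem _ _ h1 with h | h
    · have h2 := key (-1) (by rw [← sub_eq_add_neg]; exact h) (by rw [map_neg, map_one])
      have h3 : 3 ∣ 2 := h9 2 (by
        push_cast
        have := (dvd_neg (a := (3 : 𝓞 K))).mpr h2
        simpa using this)
      omega
    · have h2 := key 1 h (map_one _)
      have h3 : 3 ∣ 2 := h9 2 (by push_cast; simpa using h2)
      omega

include q in
/-- `5` splits -/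
theorem split_five {P Q : Ideal (𝓞 K)} (hP : P.IsPrime) (hQ : Q.IsPrime) (h5P : (5 : 𝓞 K) ∈ P)
    (h5Q : (5 : 𝓞 K) ∈ Q) (hPQ : P ≠ Q) : ¬ 5 ∣ d ∧ ∃ c5 : ℤ, (5 : ℤ) ∣ c5 ^ 2 + d := by
  have ht := q.t_sq
  have hint : ∀ {I : Ideal (𝓞 K)}, I ≠ ⊤ → (5 : 𝓞 K) ∈ I → ∀ n : ℤ, (n : 𝓞 K) ∈ I → (5 : ℤ) ∣ n := by
    intro I hI h5 n hn
    by_contra hcon
    have hcop : IsCoprime n (5 : ℤ) := by
      rw [isCoprime_comm]
      exact (Irreducible.coprime_iff_not_dvd
        (Int.prime_iff_natAbs_prime.mpr (by norm_num) : Prime (5 : ℤ)).irreducible).mpr hcon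
    obtain ⟨u, v, huv⟩ := hcop
    apply hI
    rw [Ideal.eq_top_iff_one]
    have h3 : (1 : 𝓞 K) = (u : 𝓞 K) * (n : 𝓞 K) + (v : 𝓞 K) * 5 := by
      exact_mod_cast (congrArg (Int.cast : ℤ → 𝓞 K) huv).symm
    rw [h3]
    exact I.add_mem (I.mul_mem_left _ hn) (I.mul_mem_left _ h5)
  constructor
  · rintro ⟨m, hm⟩
    apply hPQ
    have hmax : ∀ {I : Ideal (𝓞 K)}, I.IsPrime → (5 : 𝓞 K) ∈ I → I = Ideal.span {(5 : 𝓞 K), q.t} := by
      intro I hI h5
      have htI : q.t ∈ I := by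
        have : q.t * q.t ∈ I := by
          have e : q.t * q.t = 5 * (-m) := by
            rw [← sq, ht, hm]; push_cast; ring
          rw [e]; exact I.mul_mem_right _ h5
        rcases hI.mem_or_mem this with h | h <;> exact h
      apply le_antisymm
      · intro z hz
        obtain ⟨a, b, n, hab, -, -⟩ := coords_O q z
        have h1 : ((3 * a : ℤ) : 𝓞 K) ∈ I := by
          have e : ((3 * a : ℤ) : 𝓞 K) = 6 * z - (3 * b) * q.t := by
            push_cast; linear_combination (-3 : 𝓞 K) * hab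
          rw [e]
          exact I.sub_mem (I.mul_mem_left _ hz) (I.mul_mem_left _ htI)
        have h2 := hint hI.ne_top h5 _ h1
        obtain ⟨a', ha'⟩ : ∃ a', a = 5 * a' := ⟨a / 5, by omega⟩
        have e : z = (3 * a' - z) * 5 + (3 * b) * q.t := by
          rw [ha'] at hab; push_cast at hab; linear_combination (3 : 𝓞 K) * hab
        rw [Ideal.mem_span_pair]
        exact ⟨3 * a' - z, 3 * b, e.symm⟩
      · rw [Ideal.span_le]
        rintro z (rfl | rfl)
        · exact h5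
        · exact htI
    rw [hmax hP h5P, hmax hQ h5Q]
  · by_contra hcon
    push Not at hcon
    apply hPQ
    have hall : ∀ {I : Ideal (𝓞 K)}, I.IsPrime → (5 : 𝓞 K) ∈ I → I = Ideal.span {(5 : 𝓞 K)} := by
      intro I hI h5
      apply le_antisymm
      · intro z hz
        obtain ⟨a, b, n, hab, habn, hn⟩ := coords_O q z
        have h1 : (n : 𝓞 K) ∈ I := by rw [← hn]; exact I.mul_mem_right _ hz
        have h2 := hint hI.ne_top h5 _ h1
        have h3 : (5 : ℤ) ∣ a ^ 2 + d * b ^ 2 := by rw [habn]; exact h2.mul_left 4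
        have h5b : (5 : ℤ) ∣ b := by
          by_contra hb
          have hcop : IsCoprime b (5 : ℤ) := by
            rw [isCoprime_comm]
            exact (Irreducible.coprime_iff_not_dvd
              (Int.prime_iff_natAbs_prime.mpr (by norm_num) : Prime (5 : ℤ)).irreducible).mpr hb
          obtain ⟨u, v, huv⟩ := hcop
          apply hcon (a * u)
          obtain ⟨k, hk⟩ := h3
          refine ⟨k * u ^ 2 + d * v * (2 - 5 * v), ?_⟩
          have e : u * b = 1 - v * 5 := by linarith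
          have e2 : (a * u) ^ 2 + d * (u * b) ^ 2 = 5 * (k * u ^ 2) := by
            have : (a * u) ^ 2 + d * (u * b) ^ 2 = (a ^ 2 + d * b ^ 2) * u ^ 2 := by ring
            rw [this, hk]; ring
          rw [e] at e2
          linear_combination e2
        have h5a : (5 : ℤ) ∣ a := by
          have : (5 : ℤ) ∣ a ^ 2 := by
            have e : a ^ 2 = (a ^ 2 + d * b ^ 2) - d * b ^ 2 := by ring
            rw [e]
            exact dvd_sub h3 ((Dvd.dvd.pow h5b two_ne_zero).mul_left _)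
          exact (Int.prime_iff_natAbs_prime.mpr (by norm_num) : Prime (5 : ℤ)).dvd_of_dvd_pow this
        obtain ⟨a', ha'⟩ := h5a
        obtain ⟨b', hb'⟩ := h5b
        rw [Ideal.mem_span_singleton]
        refine ⟨3 * (a' + b' * q.t) - z, ?_⟩
        rw [ha', hb'] at hab
        push_cast at hab
        linear_combination (3 : 𝓞 K) * hab
      · rw [Ideal.span_singleton_le_iff_mem]; exact h5
    rw [hall hP h5P, hall hQ h5Q]

include q in
theorem ram_sq {p : ℕ} (hp : p.Prime) (h : Ram d p) :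
    ∃ P : Ideal (𝓞 K), P ^ 2 = Ideal.span {(p : 𝓞 K)} := by
  obtain ⟨J, hJ, -⟩ := q.exists_amb_ideal hp.prime.squarefree (fun r hr hrp => by
    rw [(Nat.prime_dvd_prime_iff_eq hr hp).mp hrp]; exact h)
  exact ⟨J, by rw [sq, hJ]⟩

/-- **Main criterion, class II.** -/
theorem criterion_II (K : Type*) [Field K] [NumberField K] [Algebra.IsQuadraticExtension ℚ K]
    [IsTotallyComplex K] (h3 : (Ideal.span {(3 : 𝓞 K)}).IsPrime)
    (h5 : ∃ P Q : Ideal (𝓞 K), P.IsPrime ∧ Q.IsPrime ∧ (5 : 𝓞 K) ∈ P ∧ (5 : 𝓞 K) ∈ Q ∧ P ≠ Q)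
    (H : ∀ b : ℕ, Squarefree b →
      (∀ p : ℕ, p.Prime → p ∣ b → p = 5 ∨ ∃ P : Ideal (𝓞 K), P ^ 2 = Ideal.span {(p : 𝓞 K)}) →
      b % 3 = 1 → (∃ w : K, Algebra.norm ℚ w = b) → b = 1 ∨ ∃ θ : K, θ ^ 2 = -(b : K)) :
    Finite (X015.baseChange K).toAffine.Point := by
  obtain ⟨d, ⟨q⟩⟩ := exists_QF K
  obtain ⟨P, Q, hP, hQ, h5P, h5Q, hPQ⟩ := h5
  obtain ⟨hd5, c5, hc5⟩ := split_five q hP hQ h5P h5Q hPQ
  apply finite_II q (inert_three q h3) hd5 hc5
  rintro b hb hram hb3 ⟨w, hw⟩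
  rcases H b hb (fun p hp hpb => by
      rcases hram p hp hpb with h | h
      · exact Or.inr (ram_sq q hp h)
      · exact Or.inl h) hb3 ⟨w, by rw [norm_eq_nm q, hw]⟩ with h | ⟨θ, hθ⟩
  · exact Or.inl h
  · exact Or.inr (d_unique q hb hθ)

end Vale.Agent.P017.H994
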